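import Mathlib

/-!
Frequencies keeping a short polynomial progression away from the integers, and the pigeonhole
step that turns them into a difference-free set.
-/

namespace Vale.Agent.P042.Power

open Finset

/-- Unless `g0 + H * v` is divisible by `L` for a small `v`, some multiplier keeps every value
congruent to `g0 + H * s`, `s` small, away from the multiples of `L`. -/
lemma exists_multiplier {L U : ℕ} {g0 H : ℤ} (hinv : ∃ H' : ℤ, (L : ℤ) ∣ H * H' - 1)
    (hv : ∀ v : ℤ, 4 * U * v.natAbs < L → ¬ (L : ℤ) ∣ g0 + H * v) :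
    ∃ A : ℤ, ∀ (g s z : ℤ), (L : ℤ) ∣ g - (g0 + H * s) → 8 * U * s.natAbs ≤ L →
      (L : ℤ) ≤ 8 * |A * g - z * L| := by
  rcases Nat.eq_zero_or_pos L with rfl | hL
  · exact ⟨0, fun g s z _ _ => by simp⟩
  obtain ⟨H', q, hq⟩ := hinv
  set ρ := (-(g0 * H')).bmod L with hρ
  obtain ⟨m, hm⟩ : (L : ℤ) ∣ -(g0 * H') - ρ := by
    refine Int.dvd_of_emod_eq_zero ?_
    rw [hρ, Int.sub_emod, Int.bmod_emod, sub_self, Int.zero_emod]
  have hlo := Int.le_bmod (x := -(g0 * H')) hL
  have hhi := Int.bmod_lt (x := -(g0 * H')) hL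
  rw [← hρ] at hlo hhi
  have hhalf : 2 * ρ.natAbs ≤ L := by omega
  have hroot : (L : ℤ) ∣ g0 + H * ρ := ⟨-(g0 * q) - H * m, by
    linear_combination (-H) * hm - g0 * hq⟩
  have hex : L ≤ 4 * U * ρ.natAbs := le_of_not_gt fun h => hv ρ h hroot
  classical
  have hex' : ∃ u, L ≤ 4 * u * ρ.natAbs := ⟨U, hex⟩
  set u := Nat.find hex' with hu
  have hu1 : L ≤ 4 * u * ρ.natAbs := Nat.find_spec hex'
  have hu0 : u ≠ 0 := fun h => by rw [h] at hu1; omega
  have huU : u ≤ U := Nat.find_min' hex' hex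
  have hu2 : 2 * (u * ρ.natAbs) ≤ L := by
    rcases Nat.lt_or_ge u 2 with h | h
    · rw [show u = 1 by omega, one_mul]; exact hhalf
    · have h1 := Nat.find_min hex' (show u - 1 < u by omega)
      have h2 := Nat.find_min hex' (show 1 < u by omega)
      have h3 : u * ρ.natAbs = (u - 1) * ρ.natAbs + ρ.natAbs := by
        rw [← Nat.succ_mul]; congr 1; omega
      rw [mul_assoc] at h1 h2
      omega
  refine ⟨(u : ℤ) * H', fun g s z hg hs => ?_⟩
  obtain ⟨w, hw⟩ := hg
  have e : (u : ℤ) * H' * g - z * L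
      = -((u : ℤ) * ρ) + (u : ℤ) * s + L * ((u : ℤ) * q * s - (u : ℤ) * m + (u : ℤ) * H' * w - z) := by
    linear_combination ((u : ℤ) * H') * hw + (u : ℤ) * s * hq - (u : ℤ) * hm
  rw [e]
  set X := (u : ℤ) * q * s - (u : ℤ) * m + (u : ℤ) * H' * w - z with hX
  have h1 : ((u : ℤ) * s).natAbs * 8 ≤ L := by
    rw [Int.natAbs_mul, Int.natAbs_natCast]
    calc u * s.natAbs * 8 = 8 * u * s.natAbs := by ring
      _ ≤ 8 * U * s.natAbs := Nat.mul_le_mul_right _ (Nat.mul_le_mul_left _ huU)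
      _ ≤ L := hs
  have h2 : ((u : ℤ) * ρ).natAbs = u * ρ.natAbs := by
    rw [Int.natAbs_mul, Int.natAbs_natCast]
  rw [mul_assoc] at hu1
  rcases lt_trichotomy X 0 with hx | hx | hx
  · have : (L : ℤ) * X ≤ -L := by
      have := mul_le_mul_of_nonneg_left (show X ≤ -1 by omega) (show (0 : ℤ) ≤ L by positivity)
      linarith
    rw [Int.abs_eq_natAbs]; omega
  · rw [hx, mul_zero, add_zero, Int.abs_eq_natAbs]; omega
  · have : (L : ℤ) ≤ L * X := le_mul_of_one_le_right (by positivity) (by omega)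
    rw [Int.abs_eq_natAbs]; omega

/-- Nested intervals: if the coefficients `g l` grow fast, some `θ` puts `θ * g 0` near `1 / 2`
and `θ * g l`, `l ≥ 1`, very near to integers. -/
lemma exists_phase (g : ℕ → ℝ) (k T : ℕ) (hT : 1 ≤ T) (h0 : g 0 ≠ 0)
    (hg : ∀ l < k, |g l| * (16 * (k + 1) * (T : ℝ) ^ l) ≤ |g (l + 1)|) :
    ∃ θ : ℝ, ∀ s z : ℤ, s.natAbs ≤ T →
      1 / 8 ≤ |θ * ∑ l ∈ range (k + 1), g l * (s : ℝ) ^ l - z| := by
  set c : ℕ → ℝ := fun l => if l = 0 then 1 / 2 else 0 with hc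
  set τ : ℕ → ℝ := fun l => 1 / (16 * (k + 1) * (T : ℝ) ^ l) with hτ
  have hTR : (1 : ℝ) ≤ T := by exact_mod_cast hT
  have hden : ∀ l : ℕ, (16 : ℝ) ≤ 16 * (k + 1) * (T : ℝ) ^ l := by
    intro l
    have h1 : (1 : ℝ) ≤ (T : ℝ) ^ l := one_le_pow₀ hTR
    have h2 : (1 : ℝ) ≤ (k : ℝ) + 1 := by
      have : (0 : ℝ) ≤ k := Nat.cast_nonneg k
      linarith
    have := one_le_mul_of_one_le_of_one_le h2 h1
    linarith
  have hτle : ∀ l, τ l ≤ 1 / 16 := fun l =>
    one_div_le_one_div_of_le (by norm_num) (hden l)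
  have hτ0 : ∀ l, 0 < τ l := fun l => div_pos one_pos (by linarith [hden l])
  have key : ∀ m ≤ k, g m ≠ 0 ∧ ∃ x : ℝ, ∀ y, |y - x| * |g m| ≤ τ m → ∀ l ≤ m,
      ∃ w : ℤ, |y * g l - c l - w| ≤ τ l := by
    intro m hm
    induction m with
    | zero =>
      refine ⟨h0, (1 / 2) / g 0, fun y hy l hl => ⟨0, ?_⟩⟩
      rw [Nat.le_zero.1 hl]
      have : y * g 0 - c 0 - ((0 : ℤ) : ℝ) = (y - (1 / 2) / g 0) * g 0 := by
        simp only [hc, if_pos]; push_cast; field_simp; ring
      rw [this, abs_mul]; exact hy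
    | succ m ih =>
      obtain ⟨hgm, x, hx⟩ := ih (by omega)
      have hstep := hg m (by omega)
      have hpos : 0 < |g m| := abs_pos.2 hgm
      have hg1 : g (m + 1) ≠ 0 := fun h => by
        rw [h, abs_zero] at hstep
        have := mul_pos hpos (show (0 : ℝ) < 16 * (k + 1) * (T : ℝ) ^ m by linarith [hden m])
        linarith
      set w := round (x * g (m + 1) - c (m + 1)) with hw
      set x' := (c (m + 1) + w) / g (m + 1) with hx'
      have hx'x : |x' - x| * |g (m + 1)| ≤ 1 / 2 := by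
        rw [← abs_mul, hx', sub_mul, div_mul_cancel₀ _ hg1]
        have := abs_sub_round (x * g (m + 1) - c (m + 1))
        rw [← hw] at this
        rw [abs_sub_comm]
        refine le_trans (le_of_eq ?_) this
        congr 1
        ring
      refine ⟨hg1, x', fun y hy l hl => ?_⟩
      rcases Nat.lt_or_ge l (m + 1) with hlt | hge
      · refine hx y ?_ l (by omega)
        have h1 : |y - x| * |g (m + 1)| ≤ 1 := by
          have := mul_le_mul_of_nonneg_right (abs_sub_le y x' x) (abs_nonneg (g (m + 1)))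
          have := hτle (m + 1)
          rw [add_mul] at *
          linarith
        simp only [hτ]
        rw [le_div_iff₀ (by linarith [hden m])]
        calc |y - x| * |g m| * (16 * (k + 1) * (T : ℝ) ^ m)
            = |y - x| * (|g m| * (16 * (k + 1) * (T : ℝ) ^ m)) := by ring
          _ ≤ |y - x| * |g (m + 1)| := mul_le_mul_of_nonneg_left hstep (abs_nonneg _)
          _ ≤ 1 := h1
      · rw [show l = m + 1 by omega]
        refine ⟨w, ?_⟩
        have : y * g (m + 1) - c (m + 1) - (w : ℝ) = (y - x') * g (m + 1) := by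
          rw [hx', sub_mul, div_mul_cancel₀ _ hg1]; ring
        rw [this, abs_mul]; exact hy
  obtain ⟨-, θ, hθ⟩ := key k le_rfl
  refine ⟨θ, fun s z hs => ?_⟩
  have hθ' := hθ θ (by rw [sub_self, abs_zero, zero_mul]; exact (hτ0 k).le)
  choose w hw using hθ'
  -- the integer part of the sum
  set W : ℤ := ∑ l ∈ (range (k + 1)).attach, w l.1 (by have := mem_range.1 l.2; omega) * s ^ (l : ℕ)
    with hW
  have hsR : |(s : ℝ)| ≤ T := by
    rw [← Int.cast_abs, Int.abs_eq_natAbs]; exact_mod_cast hs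
  have hc' : ∑ l ∈ range (k + 1), c l * (s : ℝ) ^ l = 1 / 2 := by
    rw [sum_eq_single 0 (fun l _ hl => by simp [hc, hl]) (by simp)]
    simp [hc]
  have hmain : |θ * ∑ l ∈ range (k + 1), g l * (s : ℝ) ^ l - 1 / 2 - W| ≤ 1 / 16 := by
    rw [← hc', mul_sum, ← sum_sub_distrib, hW, Int.cast_sum, ← sum_attach (range (k + 1)),
      ← sum_sub_distrib]
    refine (abs_sum_le_sum_abs _ _).trans ((sum_le_sum fun l _ =>
      (?_ : _ ≤ 1 / (16 * ((k : ℝ) + 1)))).trans ?_)
    · have hl : (l : ℕ) ≤ k := by have := mem_range.1 l.2; omega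
      push_cast
      rw [← mul_assoc, ← sub_mul, ← sub_mul, abs_mul, abs_pow]
      refine le_trans (mul_le_mul (hw l hl) (pow_le_pow_left₀ (abs_nonneg _) hsR _)
        (pow_nonneg (abs_nonneg _) _) (hτ0 _).le) (le_of_eq ?_)
      simp only [hτ]
      field_simp
    · rw [sum_const, card_attach, card_range, nsmul_eq_mul]
      push_cast
      exact le_of_eq (by field_simp)
  have hint : 1 / 2 ≤ |(W : ℝ) - z + 1 / 2| := by
    rcases le_or_gt 0 (W - z) with h | h
    · have : (0 : ℝ) ≤ (W : ℝ) - z := by exact_mod_cast h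
      rw [abs_of_nonneg (by linarith)]; linarith
    · have h' : W - z ≤ -1 := by omega
      have : (W : ℝ) - z ≤ -1 := by exact_mod_cast h'
      rw [abs_of_nonpos (by linarith)]; linarith
  set V := θ * ∑ l ∈ range (k + 1), g l * (s : ℝ) ^ l - 1 / 2 - W with hV
  have htri := abs_sub_abs_le_abs_sub ((W : ℝ) - z + 1 / 2) (-V)
  rw [abs_neg, sub_neg_eq_add] at htri
  rw [show θ * ∑ l ∈ range (k + 1), g l * (s : ℝ) ^ l - (z : ℝ) = (W : ℝ) - z + 1 / 2 + V by
    rw [hV]; ring]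
  linarith

/-- A positive proportion of a finite set has all differences in a given Bohr set. -/
lemma exists_bohr_part {α : Type*} [DecidableEq α] {p : ℕ} (S : Finset α) (θ : Fin p → ℝ)
    (e : α → ℤ) :
    ∃ A ⊆ S, S.card ≤ 8 ^ p * A.card ∧
      ∀ x ∈ A, ∀ y ∈ A, ∀ r, ∃ z : ℤ, |θ r * ((e x : ℝ) - e y) - z| < 1 / 8 := by
  classical
  rcases S.eq_empty_or_nonempty with rfl | hS
  · exact ⟨∅, subset_refl _, by simp, by simp⟩
  set col : α → Fin p → Fin 8 := fun x r => ⟨⌊8 * Int.fract (θ r * (e x : ℝ))⌋₊, by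
    rw [Nat.floor_lt (mul_nonneg (by norm_num) (Int.fract_nonneg _))]
    push_cast
    linarith [Int.fract_lt_one (θ r * (e x : ℝ))]⟩ with hcol
  obtain ⟨b, -, hb⟩ := (Finset.univ : Finset (Fin p → Fin 8)).exists_max_image
    (fun b => (S.filter fun x => col x = b).card) univ_nonempty
  refine ⟨S.filter fun x => col x = b, filter_subset _ _, ?_, ?_⟩
  · rw [card_eq_sum_card_fiberwise (f := col) (t := univ) fun x _ => mem_univ _]
    refine (sum_le_sum fun c _ => hb c (mem_univ c)).trans (le_of_eq ?_)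
    rw [sum_const, card_univ, Fintype.card_fun, Fintype.card_fin, Fintype.card_fin, smul_eq_mul]
  · intro x hx y hy r
    rw [mem_filter] at hx hy
    refine ⟨⌊θ r * (e x : ℝ)⌋ - ⌊θ r * (e y : ℝ)⌋, ?_⟩
    have heq : ⌊8 * Int.fract (θ r * (e x : ℝ))⌋₊ = ⌊8 * Int.fract (θ r * (e y : ℝ))⌋₊ :=
      congrArg Fin.val (congrFun (hx.2.trans hy.2.symm) r)
    have h1 := Nat.floor_le (mul_nonneg (by norm_num : (0 : ℝ) ≤ 8)
      (Int.fract_nonneg (θ r * (e x : ℝ))))
    have h2 := Nat.lt_floor_add_one (8 * Int.fract (θ r * (e x : ℝ)))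
    have h3 := Nat.floor_le (mul_nonneg (by norm_num : (0 : ℝ) ≤ 8)
      (Int.fract_nonneg (θ r * (e y : ℝ))))
    have h4 := Nat.lt_floor_add_one (8 * Int.fract (θ r * (e y : ℝ)))
    rw [heq] at h1 h2
    push_cast
    rw [abs_lt]
    simp only [Int.fract] at h1 h2 h3 h4
    constructor <;> linarith

end Vale.Agent.P042.Power
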