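import Mathlib

/-!
Sets of integers with restricted digits, and their differences.
-/

namespace Vale.Agent.P042.Power

open Finset

/-- A balanced expansion in base `L` vanishes only trivially. -/
lemma digits_eq_zero {L : ℤ} (hL : L ≠ 0) :
    ∀ (m : ℕ) (d : Fin m → ℤ) (top : ℤ), (∀ l, |d l| < |L|) →
      ∑ l, d l * L ^ (l : ℕ) + top * L ^ m = 0 → (∀ l, d l = 0) ∧ top = 0 := by
  intro m
  induction m with
  | zero => intro d top _ h; exact ⟨fun l => l.elim0, by simpa using h⟩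
  | succ m ih =>
    intro d top hd h
    rw [Fin.sum_univ_succ] at h
    simp only [Fin.val_zero, pow_zero, mul_one, Fin.val_succ, pow_succ', mul_left_comm _ L] at h
    rw [← mul_sum, add_assoc, ← mul_add] at h
    have h0 : d 0 = 0 := Int.eq_zero_of_abs_lt_dvd
      (m := |L|) ((abs_dvd _ _).2 ⟨-(∑ l, d (Fin.succ l) * L ^ (l : ℕ) + top * L ^ m),
        by linear_combination h⟩) (hd 0)
    rw [h0, zero_add, mul_eq_zero] at h
    obtain ⟨h1, h2⟩ := ih (fun l => d l.succ) top (fun l => hd _) (h.resolve_left hL)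
    exact ⟨Fin.cases h0 h1, h2⟩

lemma digits_lt {L : ℕ} : ∀ (m : ℕ) (w : Fin m → ℕ), (∀ l, w l < L) →
    ∑ l, w l * L ^ (l : ℕ) < L ^ m := by
  intro m
  induction m with
  | zero => simp
  | succ m ih =>
    intro w hw
    rw [Fin.sum_univ_succ]
    simp only [Fin.val_zero, pow_zero, mul_one, Fin.val_succ, pow_succ', mul_left_comm _ L]
    rw [← mul_sum]
    have := ih (fun l => w l.succ) fun l => hw _
    calc w 0 + L * ∑ l : Fin m, w l.succ * L ^ (l : ℕ)
        < L * (∑ l : Fin m, w l.succ * L ^ (l : ℕ) + 1) := by rw [mul_add_one]; have := hw 0; omega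
      _ ≤ L * L ^ m := Nat.mul_le_mul_left _ this

/-- A digit set in `[1, U * L ^ k]`, inside one class modulo `L`, none of whose differences has
the shape `∑ H (l + 1) * (L * t) ^ (l + 1)` with small lower coefficients. -/
theorem exists_digit_set {k L U : ℕ} (hk : 1 ≤ k) (hL : 0 < L) (c : ℤ) (hc : c ≠ 0)
    (R : Finset ℕ) (hR : ∀ u ∈ R, u < U)
    (hav : ∀ u ∈ R, ∀ v ∈ R, ∀ a t : ℤ, a ≠ 0 → ((u : ℤ) - v) * a ^ k = c * t ^ k → u = v) :
    ∃ S : Finset ℕ, S.card = (L / 2) ^ (k - 1) * R.card ∧ S ⊆ Finset.Icc 1 (U * L ^ k) ∧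
      (∀ x ∈ S, ∀ y ∈ S, (L : ℤ) ∣ (x : ℤ) - y) ∧
      ∀ x ∈ S, ∀ y ∈ S, ∀ (H : ℕ → ℤ) (t : ℤ), H k = c →
        (∀ l, 1 ≤ l → l < k → 2 * ((H l).natAbs * t.natAbs ^ l) ≤ L) →
        (x : ℤ) - y = ∑ l ∈ range k, H (l + 1) * ((L : ℤ) * t) ^ (l + 1) → x = y := by
  set W := L / 2 with hW
  set f : (Fin (k - 1) → ℕ) × ℕ → ℕ :=
    fun z => L * (∑ l, z.1 l * L ^ (l : ℕ) + z.2 * L ^ (k - 1)) + 1 with hf
  set T := (Fintype.piFinset fun _ : Fin (k - 1) => range W) ×ˢ R with hT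
  have hTmem : ∀ z ∈ T, (∀ l, z.1 l < W) ∧ z.2 ∈ R := by
    intro z hz
    rw [hT, mem_product, Fintype.mem_piFinset] at hz
    exact ⟨fun l => mem_range.1 (hz.1 l), hz.2⟩
  have hWle : W ≤ L := Nat.div_le_self _ _
  -- equal digits from equal values
  have hkey : ∀ z ∈ T, ∀ z' ∈ T, ∀ e : ℕ → ℤ, (∀ l < k - 1, 2 * (e l).natAbs ≤ L) →
      (f z : ℤ) - f z' = (L : ℤ) * ∑ l ∈ range k, e l * (L : ℤ) ^ l →
      (∀ l : Fin (k - 1), (z.1 l : ℤ) - z'.1 l = e l) ∧ (z.2 : ℤ) - z'.2 = e (k - 1) := by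
    intro z hz z' hz' e he heq
    have hsum : ∑ l : Fin (k - 1), ((z.1 l : ℤ) - z'.1 l - e l) * (L : ℤ) ^ (l : ℕ)
        + ((z.2 : ℤ) - z'.2 - e (k - 1)) * (L : ℤ) ^ (k - 1) = 0 := by
      have hL' : (L : ℤ) ≠ 0 := by exact_mod_cast hL.ne'
      refine mul_left_cancel₀ hL' ?_
      rw [mul_zero]
      have hsp : ∑ l ∈ range k, e l * (L : ℤ) ^ l =
          ∑ l : Fin (k - 1), e l * (L : ℤ) ^ (l : ℕ) + e (k - 1) * (L : ℤ) ^ (k - 1) := by
        conv_lhs => rw [show k = k - 1 + 1 by omega]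
        rw [sum_range_succ, Fin.sum_univ_eq_sum_range (fun l => e l * (L : ℤ) ^ l)]
      rw [hsp] at heq
      simp only [hf] at heq
      push_cast at heq
      simp only [sub_mul, sum_sub_distrib]
      linear_combination heq
    have hbd : ∀ l : Fin (k - 1), |(z.1 l : ℤ) - z'.1 l - e l| < |(L : ℤ)| := by
      intro l
      have h1 := (hTmem z hz).1 l
      have h2 := (hTmem z' hz').1 l
      have h4 := he l l.2
      rw [Nat.abs_cast, abs_lt]
      omega
    obtain ⟨h1, h2⟩ := digits_eq_zero (by exact_mod_cast hL.ne') _ _ _ hbd hsum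
    exact ⟨fun l => sub_eq_zero.1 (h1 l), sub_eq_zero.1 h2⟩
  have hinj : Set.InjOn f T := by
    intro z hz z' hz' he
    obtain ⟨h1, h2⟩ := hkey z hz z' hz' (fun _ => 0) (by simp) (by simp [he])
    refine Prod.ext (funext fun l => ?_) ?_
    · have := h1 l; omega
    · omega
  refine ⟨T.image f, ?_, ?_, ?_, ?_⟩
  · rw [card_image_of_injOn hinj, hT, card_product, Fintype.card_piFinset_const, card_range]
  · intro x hx
    obtain ⟨z, hz, rfl⟩ := mem_image.1 hx
    refine mem_Icc.2 ⟨by simp [hf], ?_⟩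
    have h1 := digits_lt (L := L) _ z.1 fun l => ((hTmem z hz).1 l).trans_le hWle
    have h2 : z.2 + 1 ≤ U := hR _ (hTmem z hz).2
    have h3 : ∑ l, z.1 l * L ^ (l : ℕ) + z.2 * L ^ (k - 1) + 1 ≤ U * L ^ (k - 1) :=
      le_trans (by rw [add_one_mul]; omega) (Nat.mul_le_mul_right _ h2)
    calc f z ≤ L * (∑ l, z.1 l * L ^ (l : ℕ) + z.2 * L ^ (k - 1) + 1) := by
          simp only [hf]; rw [mul_add_one]; omega
      _ ≤ L * (U * L ^ (k - 1)) := Nat.mul_le_mul_left _ h3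
      _ = U * L ^ k := by rw [mul_left_comm, ← pow_succ', show k - 1 + 1 = k by omega]
  · intro x hx y hy
    obtain ⟨z, hz, rfl⟩ := mem_image.1 hx
    obtain ⟨z', hz', rfl⟩ := mem_image.1 hy
    simp only [hf]
    push_cast
    rw [add_sub_add_right_eq_sub, ← mul_sub]
    exact dvd_mul_right _ _
  · intro x hx y hy H t hHk hsmall hxy
    obtain ⟨z, hz, rfl⟩ := mem_image.1 hx
    obtain ⟨z', hz', rfl⟩ := mem_image.1 hy
    obtain ⟨h1, h2⟩ := hkey z hz z' hz' (fun l => H (l + 1) * t ^ (l + 1)) (fun l hl => by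
        rw [Int.natAbs_mul, Int.natAbs_pow]
        exact hsmall (l + 1) (by omega) (by omega)) (by
        rw [hxy, mul_sum]
        exact sum_congr rfl fun l _ => by rw [mul_pow]; ring)
    simp only [show k - 1 + 1 = k by omega, hHk] at h1 h2
    have hu := hav _ (hTmem z hz).2 _ (hTmem z' hz').2 1 t one_ne_zero (by simpa using h2)
    rw [hu, sub_self, eq_comm, mul_eq_zero] at h2
    have ht0 : t = 0 := eq_zero_of_pow_eq_zero (h2.resolve_left hc)
    have : z = z' := by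
      refine Prod.ext (funext fun l => ?_) hu
      have h3 := h1 l
      rw [ht0, zero_pow (by omega), mul_zero] at h3
      omega
    rw [this]

end Vale.Agent.P042.Power
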