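import Mathlib

/-!
Size of a polynomial and of its Taylor coefficients, and uniqueness of lifts of simple roots.
-/

namespace Vale.Agent.P042.Power

open Finset Polynomial

/-- A polynomial of degree at most `d` with nonzero coefficient at `d` has exact order `|x| ^ d`. -/
lemma poly_size (q : ℤ[X]) (d : ℕ) (hdeg : q.natDegree ≤ d) (hlc : q.coeff d ≠ 0) :
    ∃ C : ℕ, ∀ x : ℤ, (q.eval x).natAbs ≤ C * (x.natAbs + 1) ^ d ∧
      (C ≤ x.natAbs → x.natAbs ^ d ≤ C * (q.eval x).natAbs ∧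
        (q.eval x).natAbs ≤ C * x.natAbs ^ d) := by
  set S := ∑ i ∈ range d, (q.coeff i).natAbs with hS
  refine ⟨2 + 2 * S + (q.coeff d).natAbs, fun x => ?_⟩
  have e : q.eval x = (∑ i ∈ range d, q.coeff i * x ^ i) + q.coeff d * x ^ d := by
    rw [eval_eq_sum_range' (Nat.lt_succ_of_le hdeg), sum_range_succ]
  have hlow : ∀ m : ℕ, 1 ≤ m → x.natAbs ≤ m →
      (∑ i ∈ range d, q.coeff i * x ^ i).natAbs ≤ S * m ^ (d - 1) := by
    intro m hm hxm
    refine (Int.natAbs_sum_le _ _).trans ?_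
    rw [hS, sum_mul]
    refine sum_le_sum fun i hi => ?_
    rw [mem_range] at hi
    rw [Int.natAbs_mul, Int.natAbs_pow]
    exact Nat.mul_le_mul_left _ ((Nat.pow_le_pow_left hxm i).trans
      (Nat.pow_le_pow_right hm (by omega)))
  refine ⟨?_, fun hC => ?_⟩
  · rw [e]
    refine (Int.natAbs_add_le _ _).trans ?_
    have h1 : S * (x.natAbs + 1) ^ (d - 1) ≤ S * (x.natAbs + 1) ^ d :=
      Nat.mul_le_mul_left _ (Nat.pow_le_pow_right (by omega) (Nat.sub_le _ _))
    have h2 : (q.coeff d * x ^ d).natAbs ≤ (q.coeff d).natAbs * (x.natAbs + 1) ^ d := by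
      rw [Int.natAbs_mul, Int.natAbs_pow]
      exact Nat.mul_le_mul_left _ (Nat.pow_le_pow_left (by omega) _)
    have h3 := hlow (x.natAbs + 1) (by omega) (by omega)
    simp only [add_mul, mul_assoc]
    omega
  · have hx : 1 ≤ x.natAbs := by omega
    have hl := hlow x.natAbs hx le_rfl
    have h2 : (q.coeff d * x ^ d).natAbs = (q.coeff d).natAbs * x.natAbs ^ d := by
      rw [Int.natAbs_mul, Int.natAbs_pow]
    have h3 : 1 ≤ (q.coeff d).natAbs := Int.natAbs_pos.2 hlc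
    have h4 : x.natAbs ^ d ≤ (q.coeff d).natAbs * x.natAbs ^ d := Nat.le_mul_of_pos_left _ h3
    have h5 : 2 * (S * x.natAbs ^ (d - 1)) ≤ x.natAbs ^ d := by
      rcases Nat.eq_zero_or_pos d with hd | hd
      · simp [hS, hd]
      · calc 2 * (S * x.natAbs ^ (d - 1)) = 2 * S * x.natAbs ^ (d - 1) := (mul_assoc _ _ _).symm
          _ ≤ x.natAbs * x.natAbs ^ (d - 1) := Nat.mul_le_mul_right _ (by omega)
          _ = x.natAbs ^ d := by rw [← pow_succ', show d - 1 + 1 = d by omega]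
    have h6 := Int.natAbs_add_le (∑ i ∈ range d, q.coeff i * x ^ i) (q.coeff d * x ^ d)
    have h7 := Int.natAbs_sub_le (q.eval x) (∑ i ∈ range d, q.coeff i * x ^ i)
    rw [e, add_sub_cancel_left, ← e] at h7
    rw [← e] at h6
    constructor
    · have : 2 * (q.eval x).natAbs ≤ (2 + 2 * S + (q.coeff d).natAbs) * (q.eval x).natAbs :=
        Nat.mul_le_mul_right _ (by omega)
      omega
    · have : S * x.natAbs ^ (d - 1) ≤ S * x.natAbs ^ d :=
        Nat.mul_le_mul_left _ (Nat.pow_le_pow_right hx (Nat.sub_le _ _))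
      simp only [add_mul, mul_assoc]
      omega

/-- The coefficients of the expansion of `h` about `x` have exact order `|x| ^ (k - l)`. -/
lemma taylor_size (h : ℤ[X]) (h0 : h ≠ 0) :
    ∃ C : ℕ, 1 ≤ C ∧ ∀ l ≤ h.natDegree, ∀ x : ℤ,
      ((taylor x h).coeff l).natAbs ≤ C * (x.natAbs + 1) ^ (h.natDegree - l) ∧
      (C ≤ x.natAbs → x.natAbs ^ (h.natDegree - l) ≤ C * ((taylor x h).coeff l).natAbs ∧
        ((taylor x h).coeff l).natAbs ≤ C * x.natAbs ^ (h.natDegree - l)) := by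
  set k := h.natDegree with hk
  have hex : ∀ l : Fin (k + 1), ∃ C : ℕ, ∀ x : ℤ,
      ((hasseDeriv l h).eval x).natAbs ≤ C * (x.natAbs + 1) ^ (k - l) ∧
      (C ≤ x.natAbs → x.natAbs ^ (k - l) ≤ C * ((hasseDeriv l h).eval x).natAbs ∧
        ((hasseDeriv l h).eval x).natAbs ≤ C * x.natAbs ^ (k - l)) := by
    intro l
    refine poly_size _ _ (natDegree_hasseDeriv_le h l) ?_
    have hl : (l : ℕ) ≤ k := Nat.lt_succ_iff.1 l.2
    rw [hasseDeriv_coeff, Nat.sub_add_cancel hl]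
    refine mul_ne_zero ?_ (leadingCoeff_ne_zero.2 h0)
    exact_mod_cast (Nat.choose_pos hl).ne'
  choose C hC using hex
  refine ⟨1 + ∑ l, C l, by omega, fun l hl x => ?_⟩
  have hle : C ⟨l, by omega⟩ ≤ 1 + ∑ l, C l :=
    le_trans (single_le_sum (fun _ _ => Nat.zero_le _) (mem_univ _)) (Nat.le_add_left _ 1)
  obtain ⟨h1, h2⟩ := hC ⟨l, by omega⟩ x
  rw [taylor_coeff]
  refine ⟨h1.trans (Nat.mul_le_mul_right _ hle), fun hx => ?_⟩
  obtain ⟨h3, h4⟩ := h2 (hle.trans hx)
  exact ⟨h3.trans (Nat.mul_le_mul_right _ hle), h4.trans (Nat.mul_le_mul_right _ hle)⟩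

/-- Two roots modulo `p ^ j` that agree modulo `p` agree modulo `p ^ j` if the root is simple. -/
lemma lift_unique {h : ℤ[X]} {p : ℕ} (hp : p.Prime) {x y : ℤ} {j : ℕ}
    (hx : (p : ℤ) ^ j ∣ h.eval x) (hy : (p : ℤ) ^ j ∣ h.eval y) (hxy : (p : ℤ) ∣ y - x)
    (hs : ¬ (p : ℤ) ∣ h.derivative.eval x) : (p : ℤ) ^ j ∣ y - x := by
  obtain ⟨z, hz⟩ := Polynomial.binomExpansion h x (y - x)
  rw [add_sub_cancel] at hz
  refine (Nat.prime_iff_prime_int.1 hp).pow_dvd_of_dvd_mul_right j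
    (b := h.derivative.eval x + z * (y - x)) (fun hd => hs ?_) ?_
  · simpa using (dvd_sub hd (dvd_mul_of_dvd_right hxy z))
  · have : (y - x) * (h.derivative.eval x + z * (y - x)) = h.eval y - h.eval x := by
      linear_combination -hz
    rw [this]
    exact dvd_sub hy hx

/-- The expansion of `h` about `x`. -/
lemma eval_expand (h : ℤ[X]) (x y : ℤ) :
    h.eval (x + y) = ∑ l ∈ range (h.natDegree + 1), (taylor x h).coeff l * y ^ l := by
  rw [add_comm x y, ← taylor_eval, eval_eq_sum_range, natDegree_taylor]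

end Vale.Agent.P042.Power
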