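import Vale.Agent.P042.Power.Bohr
import Vale.Agent.P042.Power.Poly

/-!
Frequencies for the values of `h` on one short progression of roots modulo `L`.
-/

namespace Vale.Agent.P042.Power

open Finset Polynomial

/-- `h (n + L * v)` to first order. -/
lemma eval_first_order (h : ℤ[X]) (n v L : ℤ) :
    L * L ∣ h.eval (n + L * v) - (h.eval n + h.derivative.eval n * (L * v)) := by
  obtain ⟨z, hz⟩ := Polynomial.binomExpansion h n (L * v)
  exact ⟨z * (v * v), by rw [hz]; ring⟩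

/-- Around a small number `n0`, where all Taylor terms are separated in size. -/
lemma phase_small (h : ℤ[X]) (C T L : ℕ) (n0 : ℤ) (hT : 1 ≤ T) (hn0 : h.eval n0 ≠ 0)
    (hC : C ≤ n0.natAbs)
    (hsize : ∀ l ≤ h.natDegree, ∀ x : ℤ, C ≤ x.natAbs →
      x.natAbs ^ (h.natDegree - l) ≤ C * ((taylor x h).coeff l).natAbs ∧
        ((taylor x h).coeff l).natAbs ≤ C * x.natAbs ^ (h.natDegree - l))
    (hbig : C * C * (16 * (h.natDegree + 1)) * T ^ h.natDegree * n0.natAbs ≤ L) :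
    ∃ θ : ℝ, ∀ s : ℤ, s.natAbs ≤ T → ∀ z : ℤ,
      1 / 8 ≤ |θ * ((h.eval (n0 + L * s) : ℤ) : ℝ) - z| := by
  set k := h.natDegree with hk
  set g : ℕ → ℝ := fun l => ((taylor n0 h).coeff l : ℝ) * (L : ℝ) ^ l with hg
  have hstep : ∀ l < k, |g l| * (16 * (k + 1) * (T : ℝ) ^ l) ≤ |g (l + 1)| := by
    intro l hl
    obtain ⟨-, h2⟩ := hsize l hl.le n0 hC
    obtain ⟨h3, -⟩ := hsize (l + 1) (by omega) n0 hC
    have h4 : ((taylor n0 h).coeff l).natAbs * (16 * (k + 1) * T ^ l)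
        ≤ ((taylor n0 h).coeff (l + 1)).natAbs * L := by
      calc ((taylor n0 h).coeff l).natAbs * (16 * (k + 1) * T ^ l)
          ≤ C * n0.natAbs ^ (k - l) * (16 * (k + 1) * T ^ k) :=
            Nat.mul_le_mul h2 (Nat.mul_le_mul_left _ (Nat.pow_le_pow_right hT hl.le))
        _ = C * n0.natAbs * (16 * (k + 1) * T ^ k) * n0.natAbs ^ (k - (l + 1)) := by
            rw [show k - l = k - (l + 1) + 1 by omega, pow_succ]; ring
        _ ≤ C * n0.natAbs * (16 * (k + 1) * T ^ k)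
            * (C * ((taylor n0 h).coeff (l + 1)).natAbs) := Nat.mul_le_mul_left _ h3
        _ = ((taylor n0 h).coeff (l + 1)).natAbs
            * (C * C * (16 * (k + 1)) * T ^ k * n0.natAbs) := by ring
        _ ≤ _ := Nat.mul_le_mul_left _ hbig
    have h5 : |((taylor n0 h).coeff l : ℝ)| * (16 * (k + 1) * (T : ℝ) ^ l)
        ≤ |((taylor n0 h).coeff (l + 1) : ℝ)| * L := by
      rw [← Int.cast_abs, ← Int.cast_abs, Int.abs_eq_natAbs, Int.abs_eq_natAbs, Int.cast_natCast,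
        Int.cast_natCast]
      exact_mod_cast h4
    have hLl : (0 : ℝ) ≤ (L : ℝ) ^ l := by positivity
    simp only [hg]
    rw [abs_mul, abs_mul, abs_of_nonneg hLl, pow_succ, abs_of_nonneg (show (0 : ℝ) ≤ (L : ℝ) ^ l * L by positivity)]
    calc |((taylor n0 h).coeff l : ℝ)| * (L : ℝ) ^ l * (16 * (k + 1) * (T : ℝ) ^ l)
        = |((taylor n0 h).coeff l : ℝ)| * (16 * (k + 1) * (T : ℝ) ^ l) * (L : ℝ) ^ l := by ring
      _ ≤ |((taylor n0 h).coeff (l + 1) : ℝ)| * L * (L : ℝ) ^ l :=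
          mul_le_mul_of_nonneg_right h5 hLl
      _ = _ := by ring
  obtain ⟨θ, hθ⟩ := exists_phase g k T hT (by
    simp only [hg, pow_zero, mul_one, taylor_coeff_zero]
    exact_mod_cast hn0) hstep
  refine ⟨θ, fun s hs z => ?_⟩
  have e : ((h.eval (n0 + L * s) : ℤ) : ℝ) = ∑ l ∈ range (k + 1), g l * (s : ℝ) ^ l := by
    rw [eval_expand, Int.cast_sum, ← hk]
    refine sum_congr rfl fun l _ => ?_
    simp only [hg]
    push_cast
    ring
  rw [e]
  exact hθ s z hs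

/-- Around a root `n` modulo `L` with no nearby root modulo `L * L`. -/
lemma phase_good (h : ℤ[X]) (T L : ℕ) (n : ℤ) (hL : 0 < L)
    (hn : (L : ℤ) ∣ h.eval n) (hinv : ∃ H' : ℤ, (L : ℤ) ∣ h.derivative.eval n * H' - 1)
    (hv : ∀ v : ℤ, 4 * (L / (8 * T)) * v.natAbs < L → ¬ (L : ℤ) * L ∣ h.eval (n + L * v)) :
    ∃ θ : ℝ, ∀ s : ℤ, s.natAbs ≤ T → ∀ z : ℤ,
      1 / 8 ≤ |θ * ((h.eval (n + L * s) : ℤ) : ℝ) - z| := by
  obtain ⟨g0, hg0⟩ := hn
  obtain ⟨A, hA⟩ := exists_multiplier (U := L / (8 * T)) (g0 := g0) hinv (fun v hv' hd => by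
    refine hv v hv' ?_
    obtain ⟨w, hw⟩ := eval_first_order h n v L
    obtain ⟨w', hw'⟩ := hd
    exact ⟨w + w', by linear_combination hw + (L : ℤ) * hw' + hg0⟩)
  refine ⟨(A : ℝ) / ((L : ℝ) * L), fun s hs z => ?_⟩
  obtain ⟨w, hw⟩ := eval_first_order h n s L
  have he : h.eval (n + L * s) = L * (g0 + h.derivative.eval n * s + L * w) := by
    linear_combination hw + hg0
  have h1 := hA (g0 + h.derivative.eval n * s + L * w) s z ⟨w, by ring⟩ (by
    calc 8 * (L / (8 * T)) * s.natAbs ≤ 8 * (L / (8 * T)) * T := Nat.mul_le_mul_left _ hs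
      _ = L / (8 * T) * (8 * T) := by ring
      _ ≤ L := Nat.div_mul_le_self _ _)
  set G := g0 + h.derivative.eval n * s + L * w with hG
  have hLR : (0 : ℝ) < L := by exact_mod_cast hL
  have h2 : (L : ℝ) ≤ 8 * |(A : ℝ) * G - z * L| := by exact_mod_cast h1
  have e : (A : ℝ) / ((L : ℝ) * L) * ((h.eval (n + L * s) : ℤ) : ℝ) - z
      = ((A : ℝ) * G - z * L) / L := by
    rw [he]; push_cast; field_simp
  rw [e, abs_div, abs_of_pos hLR, le_div_iff₀ hLR]
  linarith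

end Vale.Agent.P042.Power
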