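import Mathlib

/-!
A ladder of scales and the count of a digit set.
-/

namespace Vale.Agent.P042.Power

open Finset

/-- The pair (drop, gain) of exponents of the `i`-th scale. -/
def scaleParam (k P : ℕ) : ℕ → ℕ × ℕ
  | 0 => (0, 1)
  | i + 1 => ((scaleParam k P i).1 + (k + 1) * (scaleParam k P i).2 + 1,
      2 * P * k * ((scaleParam k P i).1 + (k + 1) * (scaleParam k P i).2 + 1) + 1)

lemma scaleParam_gain (k P i : ℕ) :
    2 * P * k * (scaleParam k P i).1 + 1 = (scaleParam k P i).2 := by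
  cases i <;> simp [scaleParam]

lemma scaleParam_gap (k P : ℕ) {i i' : ℕ} (h : i < i') :
    (scaleParam k P i).1 + (k + 1) * (scaleParam k P i).2 + 1 ≤ (scaleParam k P i').1 := by
  induction i', h using Nat.le_induction with
  | base => simp [scaleParam]
  | succ m _ ih => exact ih.trans (by simp [scaleParam]; omega)

/-- A total exponent dominating all scales up to `p`. -/
def scaleTotal (k P p : ℕ) : ℕ :=
  4 * (∑ i ∈ range (p + 1), ((scaleParam k P i).1 + (k + 1) * (scaleParam k P i).2)) + 4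

lemma scaleTotal_ge (k P p : ℕ) {i : ℕ} (hi : i ≤ p) :
    4 * ((scaleParam k P i).1 + (k + 1) * (scaleParam k P i).2) + 4 ≤ scaleTotal k P p := by
  have := single_le_sum (f := fun i => (scaleParam k P i).1 + (k + 1) * (scaleParam k P i).2)
    (fun _ _ => Nat.zero_le _) (mem_range.2 (show i < p + 1 by omega))
  unfold scaleTotal
  omega

/-- The size of a digit set with top digits from an avoiding set. -/
lemma digit_count {k L V P i c : ℕ} (hk : 1 ≤ k) (hL : 2 ≤ L) (hV : V ^ k < (P ^ k) ^ (i + 1))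
    (hc : c = (L / 2) ^ (k - 1) * (2 * P ^ (k - 1)) ^ i) :
    ((L * V) ^ (k - 1)) ^ P * V ≤ ((4 * P) ^ (k - 1)) ^ P * 2 ^ P * c ^ P := by
  have hVP : V < P ^ (i + 1) := by
    refine (Nat.pow_lt_pow_iff_left (by omega : k ≠ 0)).1 (hV.trans_le (le_of_eq ?_))
    exact pow_right_comm P k (i + 1)
  have h1 : L ≤ 4 * (L / 2) := by omega
  have h2 : V ≤ 2 ^ P * (2 ^ i) ^ P := by
    refine hVP.le.trans ((Nat.pow_le_pow_left Nat.lt_two_pow_self.le (i + 1)).trans (le_of_eq ?_))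
    rw [← pow_mul, ← pow_mul, ← pow_add]
    ring_nf
  have h3 : (L * V) ^ (k - 1) ≤ (4 * P) ^ (k - 1) * ((L / 2) ^ (k - 1) * (P ^ (k - 1)) ^ i) := by
    refine (Nat.pow_le_pow_left (Nat.mul_le_mul h1 hVP.le) _).trans (le_of_eq ?_)
    rw [pow_right_comm P (k - 1) i, ← mul_pow, ← mul_pow, pow_succ]
    ring_nf
  calc ((L * V) ^ (k - 1)) ^ P * V
      ≤ ((4 * P) ^ (k - 1) * ((L / 2) ^ (k - 1) * (P ^ (k - 1)) ^ i)) ^ P
          * (2 ^ P * (2 ^ i) ^ P) := Nat.mul_le_mul (Nat.pow_le_pow_left h3 P) h2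
    _ = ((4 * P) ^ (k - 1)) ^ P * 2 ^ P * c ^ P := by rw [hc]; simp only [mul_pow]; ring

end Vale.Agent.P042.Power
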