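import Vale.Agent.P042.Power.Ruzsa
import Vale.Agent.P042.Power.Digit
import Vale.Agent.P042.Power.Scales
import Vale.Agent.P042.Power.Phases

/-!
If every root of `h` modulo some prime is simple, some subset of `[1, N]` of size
`N ^ (1 - 1 / k + δ)` has no nonzero difference `h n`, `n ≥ 1`.

Near integer roots the digit set does the work; the other residues are killed by Bohr sets,
at a scale at which every dangerous residue has a smaller witness at a later scale.
-/

namespace Vale.Agent.P042.Power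

open Finset Polynomial

/-- The difference-free set at a suitable scale, with all constants in one number `Q`. -/
theorem exists_free_at_scale (h : ℤ[X]) (hk : 2 ≤ h.natDegree) (hlead : 0 < h.leadingCoeff)
    (p : ℕ) (hp : p.Prime) (H : ∀ r : ℤ, (p : ℤ) ∣ h.eval r → ¬ (p : ℤ) ∣ h.derivative.eval r) :
    ∃ P D Q : ℕ, 0 < P ∧ 0 < D ∧ ∀ z : ℕ, Q ≤ p ^ z → 1 ≤ z →
      ∃ A : Finset ℕ, A ⊆ Finset.Icc 1 ((p ^ z) ^ (h.natDegree * D)) ∧
        (∀ x ∈ A, ∀ y ∈ A, ∀ n : ℕ, 1 ≤ n → (x : ℤ) - y = h.eval (n : ℤ) → x = y) ∧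
        (p ^ z) ^ (P * (h.natDegree - 1) * D + 1) ≤ Q * A.card ^ P := by
  set k := h.natDegree with hkdef
  have h0 : h ≠ 0 := ne_zero_of_natDegree_gt (by omega : 1 < h.natDegree)
  have hpp : Prime (p : ℤ) := Nat.prime_iff_prime_int.1 hp
  obtain ⟨P, hP, hR⟩ := exists_avoiding k hk h.leadingCoeff hlead.ne'
  obtain ⟨C, hC1, hC⟩ := taylor_size h h0
  obtain ⟨C1, hg⟩ := poly_size h k le_rfl (by rw [hkdef, coeff_natDegree]; exact hlead.ne')
  -- integer roots above residues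
  have hroot : ∀ r : ℕ, ∃ b : ℤ, (∃ b' : ℤ, h.eval b' = 0 ∧ (p : ℤ) ∣ b' - r) →
      h.eval b = 0 ∧ (p : ℤ) ∣ b - r := by
    intro r
    by_cases hr : ∃ b' : ℤ, h.eval b' = 0 ∧ (p : ℤ) ∣ b' - r
    · obtain ⟨b', hb'⟩ := hr
      exact ⟨b', fun _ => hb'⟩
    · exact ⟨0, fun h' => absurd h' hr⟩
  choose bf hbf using hroot
  set Sb := ∑ r ∈ range p, (bf r).natAbs with hSb
  set CT := C1 + 2 with hCT
  set C3 := 5 * CT with hC3
  set D := scaleTotal k P p with hD
  set B := C * (Sb + 1) ^ k with hB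
  set Q := 2 * B * CT ^ k + 8 * CT + C * C * (16 * (k + 1)) * CT ^ k * C3 + C3 + Sb
    + C * (C + 1) ^ k + ((4 * P) ^ (k - 1)) ^ P * 2 ^ P * (8 ^ p) ^ P with hQ
  refine ⟨P, D, Q, hP.pos, by rw [hD, scaleTotal]; omega, fun z hz hz1 => ?_⟩
  classical
  set X := p ^ z with hX
  have hX1 : 1 ≤ X := Nat.one_le_pow _ _ hp.pos
  clear_value X
  set μ : ℕ → ℕ := fun i => (scaleParam k P i).1 with hμ
  set e : ℕ → ℕ := fun i => (scaleParam k P i).2 with he
  -- dangerous residues at a scale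
  set Bad : ℕ → ℕ → Prop := fun i r => ∃ n0 : ℤ, h.eval n0 ≠ 0 ∧ (p : ℤ) ∣ n0 - r ∧
    n0.natAbs ≤ C3 * X ^ (D - μ i) ∧
      ((X ^ (D - μ i - e i) * X ^ (D - μ i - e i) : ℕ) : ℤ) ∣ h.eval n0 with hBad
  set last : ℕ → ℕ := fun r => Nat.findGreatest (fun i => Bad i r) p with hlast
  obtain ⟨i, hip, hi⟩ : ∃ i ≤ p, ∀ r < p, last r ≠ i := by
    by_contra hcon
    push Not at hcon
    have hsub : range (p + 1) ⊆ (range p).image last := fun i hi => by
      obtain ⟨r, hr, hri⟩ := hcon i (Nat.lt_succ_iff.1 (mem_range.1 hi))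
      exact mem_image.2 ⟨r, mem_range.2 hr, hri⟩
    have := (card_le_card hsub).trans card_image_le
    simp only [card_range] at this
    omega
  have hbadlater : ∀ r < p, Bad i r → ∃ i', i < i' ∧ i' ≤ p ∧ Bad i' r := by
    intro r hr hb
    refine ⟨last r, lt_of_le_of_ne (Nat.le_findGreatest hip hb) (hi r hr).symm,
      Nat.findGreatest_le _, Nat.findGreatest_spec (P := fun i => Bad i r) hip hb⟩
  have htot := scaleTotal_ge k P p hip
  rw [← hD] at htot
  set m := μ i with hm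
  set η := e i with hη
  have hηm : 2 * P * k * m + 1 = η := scaleParam_gain k P i
  have hmη : 4 * (m + (k + 1) * η) + 4 ≤ D := htot
  have hkη : k * η + η = (k + 1) * η := by ring
  set j := D - m - η with hj
  have hj1 : k * η + 1 ≤ j := by omega
  have hηk : η ≤ k * η := Nat.le_mul_of_pos_left _ (by omega)
  set L := X ^ j with hLdef
  set V := X ^ η with hVdef
  set T := CT * V with hT
  have hQX : Q ≤ X := hz
  have hV1 : 1 ≤ V := Nat.one_le_pow _ _ hX1
  have hXL : X ≤ L := Nat.le_self_pow (by omega) _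
  have hL0 : 0 < L := lt_of_lt_of_le hX1 hXL
  have hT1 : 1 ≤ T := Nat.mul_pos (by omega) hV1
  have hpow : ∀ c a b : ℕ, c ≤ Q → a + 1 ≤ b → c * X ^ a ≤ X ^ b := by
    intro c a b hc hab
    refine (Nat.mul_le_mul_right _ (hc.trans hQX)).trans ?_
    rw [← pow_succ']
    exact Nat.pow_le_pow_right hX1 hab
  have hTk : T ^ k = CT ^ k * X ^ (k * η) := by rw [hT, mul_pow, hVdef, ← pow_mul, mul_comm η k]
  have hA1 : 2 * B * T ^ k ≤ L := by
    rw [hTk, ← mul_assoc]; exact hpow _ _ _ (by omega) hj1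
  have hB1 : 8 * T ≤ L := by
    rw [hT, ← mul_assoc]; exact hpow _ _ _ (by omega) (by omega)
  have hSbL : Sb ≤ L := (show Sb ≤ Q by omega).trans (hQX.trans hXL)
  obtain ⟨R, hRc, hRlt, hRav⟩ := hR (Nat.log (P ^ k) (V ^ k))
  have hQ1 : 1 < P ^ k := Nat.one_lt_pow (by omega) hP.one_lt
  have hVk : (P ^ k) ^ Nat.log (P ^ k) (V ^ k) ≤ V ^ k :=
    Nat.pow_log_le_self _ (pow_ne_zero _ (by omega))
  obtain ⟨S, hScard, hSsub, hSdvd, hSfree⟩ := exists_digit_set (k := k) (L := L) (U := V ^ k)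
    (by omega) hL0 h.leadingCoeff hlead.ne' R (fun u hu => (hRlt u hu).trans_le hVk) hRav
  have hLpow : (L : ℤ) = (p : ℤ) ^ (z * j) := by
    rw [hLdef, hX, ← pow_mul]; push_cast; rfl
  have hzj : z * j ≠ 0 := Nat.mul_ne_zero (by omega) (by omega)
  have hpL : (p : ℤ) ∣ L := by rw [hLpow]; exact dvd_pow_self _ hzj
  have hlift : ∀ x y : ℤ, (L : ℤ) ∣ h.eval x → (L : ℤ) ∣ h.eval y → (p : ℤ) ∣ y - x →
      (L : ℤ) ∣ y - x := by
    intro x y hx hy hxy
    have hpx : (p : ℤ) ∣ h.eval x := hpL.trans hx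
    rw [hLpow] at hx hy ⊢
    exact lift_unique hp hx hy hxy (H x hpx)
  have hsmall_s : ∀ (a : ℤ) (n : ℕ) (s : ℤ), a.natAbs ≤ L → n ≤ C1 * (L * V) →
      (n : ℤ) - a = L * s → s.natAbs ≤ T := by
    intro a n s ha hn he
    have h1 : L * s.natAbs ≤ n + a.natAbs := by
      have : ((L : ℤ) * s).natAbs ≤ n + a.natAbs := by
        rw [← he]; exact (Int.natAbs_sub_le _ _).trans (by rw [Int.natAbs_natCast])
      rwa [Int.natAbs_mul, Int.natAbs_natCast] at this
    refine Nat.le_of_mul_le_mul_left (h1.trans ?_) hL0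
    have h2 : L ≤ L * V := Nat.le_mul_of_pos_right _ hV1
    calc n + a.natAbs ≤ C1 * (L * V) + L := by omega
      _ ≤ (C1 + 2) * (L * V) := by rw [add_mul]; omega
      _ = L * T := by rw [hT, hCT]; ring
  -- frequencies for the residues without an integer root
  have hphase : ∀ r : Fin p, ∃ θ : ℝ, (¬ ∃ b : ℤ, h.eval b = 0 ∧ (p : ℤ) ∣ b - (r : ℕ)) →
      ∀ n : ℕ, n ≤ C1 * (L * V) → (L : ℤ) ∣ h.eval (n : ℤ) → (p : ℤ) ∣ (n : ℤ) - (r : ℕ) →
        ∀ w : ℤ, 1 / 8 ≤ |θ * ((h.eval (n : ℤ) : ℤ) : ℝ) - w| := by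
    intro r
    by_cases hint : ∃ b : ℤ, h.eval b = 0 ∧ (p : ℤ) ∣ b - (r : ℕ)
    · exact ⟨0, fun h' => absurd hint h'⟩
    by_cases hex : ∃ n : ℕ, (L : ℤ) ∣ h.eval (n : ℤ) ∧ (p : ℤ) ∣ (n : ℤ) - (r : ℕ)
    swap
    · exact ⟨0, fun _ n _ h1 h2 => absurd ⟨n, h1, h2⟩ hex⟩
    obtain ⟨n1, hn1, hn1r⟩ := hex
    by_cases hbad : Bad i r
    · obtain ⟨i', hii', hi'p, n0, hn0, hn0r, hn0s, hn0d⟩ := hbadlater r r.2 hbad
      have hgap := scaleParam_gap k P hii'
      have htot' := scaleTotal_ge k P p hi'p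
      rw [← hD] at htot'
      set m' := μ i' with hm'
      set η' := e i' with hη'
      have hgap' : m + (k + 1) * η + 1 ≤ m' := hgap
      have htot2 : 4 * (m' + (k + 1) * η') + 4 ≤ D := htot'
      have hη'k : η' ≤ (k + 1) * η' := Nat.le_mul_of_pos_left _ (by omega)
      have hC3L : C * C * (16 * (k + 1)) * T ^ k * n0.natAbs ≤ L := by
        refine (Nat.mul_le_mul_left _ hn0s).trans ?_
        calc C * C * (16 * (k + 1)) * T ^ k * (C3 * X ^ (D - m'))
            = C * C * (16 * (k + 1)) * CT ^ k * C3 * X ^ (k * η + (D - m')) := by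
              rw [hTk, pow_add]; ring
          _ ≤ X ^ j := hpow _ _ _ (by omega) (by omega)
      have hn0L : n0.natAbs ≤ L := hn0s.trans (hpow _ _ _ (by omega) (by omega))
      have hLn0 : (L : ℤ) ∣ h.eval n0 := by
        refine dvd_trans ?_ hn0d
        rw [← pow_add, hLdef]
        exact Int.natCast_dvd_natCast.2 (pow_dvd_pow _ (by omega))
      have hCn0 : C ≤ n0.natAbs := by
        by_contra hlt
        have h1 := (hC 0 (Nat.zero_le _) n0).1
        rw [taylor_coeff_zero, Nat.sub_zero, ← hkdef] at h1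
        have h2 : X ^ (D - m' - η') * X ^ (D - m' - η') ≤ (h.eval n0).natAbs :=
          Nat.le_of_dvd (Int.natAbs_pos.2 hn0) (Int.natCast_dvd.1 hn0d)
        have h6 : C * (C + 1) ^ k ≤ X := (show C * (C + 1) ^ k ≤ Q by omega).trans hQX
        have h3 : C * (n0.natAbs + 1) ^ k ≤ C * C ^ k :=
          Nat.mul_le_mul_left _ (Nat.pow_le_pow_left (by omega) _)
        have h4 : C * C ^ k < C * (C + 1) ^ k :=
          Nat.mul_lt_mul_of_pos_left (Nat.pow_lt_pow_left (by omega) (by omega)) (by omega)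
        have h5 : X ≤ X ^ (D - m' - η') * X ^ (D - m' - η') :=
          (Nat.le_self_pow (by omega) _).trans (Nat.le_mul_of_pos_right _ (pow_pos hX1 _))
        omega
      obtain ⟨θ, hθ⟩ := phase_small h C T L n0 hT1 hn0 hCn0
        (fun l hl x hx => (hC l hl x).2 hx) hC3L
      refine ⟨θ, fun _ n hn hLn hnr w => ?_⟩
      obtain ⟨s, hs⟩ := hlift n0 n hLn0 hLn
        (by simpa using dvd_sub hnr hn0r)
      have := hθ s (hsmall_s n0 n s hn0L hn hs) w
      rwa [← hs, add_sub_cancel] at this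
    · set nr : ℕ := n1 % L with hnr
      have hnrL : nr < L := Nat.mod_lt _ hL0
      have hd : (L : ℤ) ∣ (nr : ℤ) - n1 := by
        rw [hnr]; push_cast
        exact ⟨-((n1 : ℤ) / L), by rw [Int.emod_def]; ring⟩
      have hLnr : (L : ℤ) ∣ h.eval (nr : ℤ) :=
        (dvd_iff_dvd_of_dvd_sub (hd.trans (sub_dvd_eval_sub _ _ h))).2 hn1
      have hnrr : (p : ℤ) ∣ (nr : ℤ) - (r : ℕ) := by
        simpa using dvd_add (hpL.trans hd) hn1r
      have hinv : ∃ H' : ℤ, (L : ℤ) ∣ h.derivative.eval (nr : ℤ) * H' - 1 := by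
        obtain ⟨a, b, hab⟩ :=
          (hpp.coprime_iff_not_dvd.2 (H _ (hpL.trans hLnr))).pow_left (m := z * j)
        exact ⟨b, -a, by rw [hLpow]; linear_combination hab⟩
      obtain ⟨θ, hθ⟩ := phase_good h T L nr hL0 hLnr hinv (fun v hv hd2 => by
        refine hbad ⟨(nr : ℤ) + L * v, fun h' => hint ⟨_, h', ?_⟩, ?_, ?_, ?_⟩
        · rw [add_sub_right_comm]; exact dvd_add hnrr (dvd_mul_of_dvd_left hpL _)
        · rw [add_sub_right_comm]; exact dvd_add hnrr (dvd_mul_of_dvd_left hpL _)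
        · have h8 : L < 8 * T * (L / (8 * T) + 1) := Nat.lt_mul_div_succ L (by omega)
          have hv4 : v.natAbs ≤ 4 * T := by
            by_contra hlt
            have h9 : 4 * (L / (8 * T)) * (4 * T + 1) ≤ 4 * (L / (8 * T)) * v.natAbs :=
              Nat.mul_le_mul_left _ (by omega)
            have h10 : 1 ≤ L / (8 * T) := (Nat.one_le_div_iff (by omega)).2 hB1
            have h11 : 8 * T * (L / (8 * T) + 1) ≤ 4 * (L / (8 * T)) * (4 * T + 1) := by
              calc 8 * T * (L / (8 * T) + 1) ≤ 8 * T * (2 * (L / (8 * T))) :=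
                    Nat.mul_le_mul_left _ (by omega)
                _ = 4 * (L / (8 * T)) * (4 * T) := by ring
                _ ≤ _ := Nat.mul_le_mul_left _ (by omega)
            omega
          show ((nr : ℤ) + L * v).natAbs ≤ C3 * X ^ (D - m)
          calc ((nr : ℤ) + L * v).natAbs ≤ nr + L * v.natAbs := by
                refine (Int.natAbs_add_le _ _).trans ?_
                rw [Int.natAbs_natCast, Int.natAbs_mul, Int.natAbs_natCast]
            _ ≤ L * T + L * (4 * T) := Nat.add_le_add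
                (hnrL.le.trans (Nat.le_mul_of_pos_right _ hT1)) (Nat.mul_le_mul_left _ hv4)
            _ = C3 * (X ^ j * X ^ η) := by rw [hC3, hT, hLdef, hVdef]; ring
            _ = C3 * X ^ (D - m) := by rw [← pow_add, show j + η = D - m by omega]
        · push_cast
          rw [hLdef] at hd2
          push_cast at hd2
          exact hd2)
      refine ⟨θ, fun _ n hn hLn hnr' w => ?_⟩
      obtain ⟨s, hs⟩ := hlift nr n hLnr hLn (by simpa using dvd_sub hnr' hnrr)
      have := hθ s (hsmall_s nr n s (by simpa using hnrL.le) hn hs) w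
      rwa [← hs, add_sub_cancel] at this
  choose θ hθ using hphase
  obtain ⟨A, hAS, hAcard, hAbohr⟩ := exists_bohr_part S θ (fun x : ℕ => (x : ℤ))
  have hjη : j + η + m = D := by omega
  refine ⟨A, ?_, ?_, ?_⟩
  · refine (hAS.trans hSsub).trans (Finset.Icc_subset_Icc le_rfl ?_)
    rw [hVdef, hLdef, ← mul_pow, ← pow_add, ← pow_mul]
    exact Nat.pow_le_pow_right hX1 (by rw [mul_comm]; exact Nat.mul_le_mul_left _ (by omega))
  · intro x hx y hy n hn hxy
    have hLn : (L : ℤ) ∣ h.eval (n : ℤ) := hxy ▸ hSdvd x (hAS hx) y (hAS hy)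
    have hxI := mem_Icc.1 (hSsub (hAS hx))
    have hyI := mem_Icc.1 (hSsub (hAS hy))
    have hnC : n ≤ C1 * (L * V) := by
      rcases le_or_gt C1 n with hC1n | hC1n
      · have h1 := ((hg n).2 (by simpa using hC1n)).1
        rw [Int.natAbs_natCast] at h1
        have h2 : (h.eval (n : ℤ)).natAbs ≤ (L * V) ^ k := by
          rw [← hxy, mul_pow, mul_comm]; omega
        refine (Nat.pow_le_pow_iff_left (by omega : k ≠ 0)).1 ((h1.trans
          (Nat.mul_le_mul_left _ h2)).trans ?_)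
        rw [mul_pow C1]
        exact Nat.mul_le_mul_right _ (Nat.le_self_pow (by omega) _)
      · exact hC1n.le.trans (Nat.le_mul_of_pos_right _ (Nat.mul_pos hL0 hV1))
    have hr : n % p < p := Nat.mod_lt _ hp.pos
    have hnr : (p : ℤ) ∣ (n : ℤ) - ((n % p : ℕ) : ℤ) :=
      ⟨(n / p : ℕ), by rw [sub_eq_iff_eq_add]; exact_mod_cast (Nat.div_add_mod n p).symm⟩
    by_cases hint : ∃ b : ℤ, h.eval b = 0 ∧ (p : ℤ) ∣ b - (n % p : ℕ)
    · obtain ⟨hb0, hbr⟩ := hbf (n % p) hint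
      set b := bf (n % p) with hb
      have hbS : b.natAbs ≤ Sb :=
        single_le_sum (f := fun r => (bf r).natAbs) (fun _ _ => Nat.zero_le _) (mem_range.2 hr)
      obtain ⟨t, ht⟩ := hlift b n (by rw [hb0]; exact dvd_zero _) hLn
        (by simpa using dvd_sub hnr hbr)
      have htT := hsmall_s b n t (hbS.trans hSbL) hnC ht
      refine hSfree x (hAS hx) y (hAS hy) (fun l => (taylor b h).coeff l) t ?_ ?_ ?_
      · show (taylor b h).coeff k = h.leadingCoeff
        rw [hkdef, ← natDegree_taylor h b, coeff_natDegree, leadingCoeff_taylor]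
      · intro l _ hlk
        refine le_trans ?_ hA1
        rw [mul_assoc]
        refine Nat.mul_le_mul_left _ (Nat.mul_le_mul ?_ ((Nat.pow_le_pow_left htT l).trans
          (Nat.pow_le_pow_right hT1 hlk.le)))
        refine (hC l hlk.le b).1.trans (Nat.mul_le_mul_left _ ?_)
        exact (Nat.pow_le_pow_left (by omega) _).trans
          (Nat.pow_le_pow_right (by omega) (Nat.sub_le _ _))
      · rw [hxy, show (n : ℤ) = b + L * t by rw [← ht]; ring, eval_expand, sum_range_succ']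
        simp only [taylor_coeff_zero, hb0, zero_mul, add_zero]
        rfl
    · exfalso
      obtain ⟨w, hw⟩ := hAbohr x hx y hy ⟨n % p, hr⟩
      have h1 := hθ ⟨n % p, hr⟩ hint n hnC hLn hnr w
      rw [← hxy] at h1
      push_cast at h1 hw
      linarith
  · set c := (L / 2) ^ (k - 1) * (2 * P ^ (k - 1)) ^ Nat.log (P ^ k) (V ^ k) with hc
    have hcount := digit_count (k := k) (L := L) (V := V) (P := P) (c := c) (by omega)
      (le_trans (by omega) hB1) (Nat.lt_pow_succ_log_self hQ1 _) hc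
    have hcA : c ≤ 8 ^ p * A.card := by rw [hc, ← hRc, ← hScard]; exact hAcard
    have hexp : P * (k - 1) * D + 1 ≤ (j + η) * (k - 1) * P + η := by
      have h1 : P * (k - 1) * D = (j + η) * (k - 1) * P + P * (k - 1) * m := by
        rw [← hjη]; ring
      have h2 : P * (k - 1) * m ≤ P * k * m :=
        Nat.mul_le_mul_right _ (Nat.mul_le_mul_left _ (Nat.sub_le _ _))
      have h3 : 2 * P * k * m = P * k * m + P * k * m := by ring
      omega
    calc X ^ (P * (k - 1) * D + 1) ≤ X ^ ((j + η) * (k - 1) * P + η) :=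
          Nat.pow_le_pow_right hX1 hexp
      _ = ((L * V) ^ (k - 1)) ^ P * V := by
          rw [hLdef, hVdef, ← pow_add, ← pow_mul, ← pow_mul, ← pow_add, mul_assoc (j + η)]
      _ ≤ ((4 * P) ^ (k - 1)) ^ P * 2 ^ P * c ^ P := hcount
      _ ≤ ((4 * P) ^ (k - 1)) ^ P * 2 ^ P * (8 ^ p * A.card) ^ P :=
          Nat.mul_le_mul_left _ (Nat.pow_le_pow_left hcA _)
      _ = ((4 * P) ^ (k - 1)) ^ P * 2 ^ P * (8 ^ p) ^ P * A.card ^ P := by rw [mul_pow]; ring
      _ ≤ Q * A.card ^ P := Nat.mul_le_mul_right _ (Nat.le_add_left _ _)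

/-- If every root of `h` modulo the prime `p` is simple, then a subset of `[1, N]` of size
`N ^ (1 - 1 / k + δ)` has no nonzero difference `h n`. -/
theorem general_lower_bound (h : ℤ[X]) (hk : 2 ≤ h.natDegree) (hlead : 0 < h.leadingCoeff)
    (p : ℕ) (hp : p.Prime) (H : ∀ r : ℤ, (p : ℤ) ∣ h.eval r → ¬ (p : ℤ) ∣ h.derivative.eval r) :
    ∃ δ : ℝ, 0 < δ ∧ ∃ N0 : ℕ, ∀ N : ℕ, N0 ≤ N → ∃ A : Finset ℕ, A ⊆ Finset.Icc 1 N ∧
      (∀ x ∈ A, ∀ y ∈ A, ∀ n : ℕ, 1 ≤ n → (x : ℤ) - y = h.eval (n : ℤ) → x = y) ∧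
      (N : ℝ) ^ (1 - 1 / (h.natDegree : ℝ) + δ) ≤ A.card := by
  obtain ⟨P, D, Q, hP, hD, hfree⟩ := exists_free_at_scale h hk hlead p hp H
  set k := h.natDegree with hkdef
  set M := 2 * P * (k - 1) * D + 1 with hM
  set Z0 := Q ^ 2 * p ^ M + Q + 1 with hZ0
  have hkD : 0 < k * D := Nat.mul_pos (by omega) hD
  have hbase : 1 < p ^ (k * D) := Nat.one_lt_pow hkD.ne' hp.one_lt
  refine ⟨1 / (2 * (P : ℝ) * k * D), by
    have : (0 : ℝ) < k := by exact_mod_cast (show 0 < k by omega)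
    positivity, (p ^ (k * D)) ^ Z0, fun N hN => ?_⟩
  have hN1 : 1 ≤ N := le_trans (Nat.one_le_pow _ _ (by omega)) hN
  set z := Nat.log (p ^ (k * D)) N with hz
  have hzN : (p ^ (k * D)) ^ z ≤ N := Nat.pow_log_le_self _ (by omega)
  have hNz : N < (p ^ (k * D)) ^ (z + 1) := Nat.lt_pow_succ_log_self hbase N
  have hzZ : Z0 ≤ z := Nat.le_log_of_pow_le hbase hN
  have hXz : z ≤ p ^ z := (Nat.lt_pow_self hp.one_lt).le
  obtain ⟨A, hA1, hA2, hA3⟩ := hfree z (by omega) (by omega)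
  refine ⟨A, hA1.trans (Finset.Icc_subset_Icc le_rfl ?_), hA2, ?_⟩
  · rwa [pow_right_comm]
  set E := 2 * P * k * D with hE
  have hE0 : E ≠ 0 := by rw [hE]; positivity
  have hfin : N ^ M ≤ A.card ^ E := by
    set X := p ^ z with hX
    have hX1 : 1 ≤ X := Nat.one_le_pow _ _ hp.pos
    refine Nat.le_of_mul_le_mul_left (?_ : (Q ^ 2) ^ (k * D) * N ^ M
      ≤ (Q ^ 2) ^ (k * D) * A.card ^ E) (pow_pos ?_ _)
    · calc (Q ^ 2) ^ (k * D) * N ^ M
          ≤ (Q ^ 2) ^ (k * D) * ((p ^ (k * D)) ^ (z + 1)) ^ M :=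
            Nat.mul_le_mul_left _ (Nat.pow_le_pow_left hNz.le _)
        _ = (Q ^ 2 * p ^ M * X ^ M) ^ (k * D) := by
            rw [show ((p ^ (k * D)) ^ (z + 1)) ^ M = (p ^ M * X ^ M) ^ (k * D) from ?_, ← mul_pow,
              mul_assoc]
            rw [hX, ← mul_pow, ← pow_succ', ← pow_mul, ← pow_mul, ← pow_mul, ← pow_mul]
            ring_nf
        _ ≤ (X * X ^ M) ^ (k * D) := Nat.pow_le_pow_left (Nat.mul_le_mul_right _ (by omega)) _
        _ = ((X ^ (P * (k - 1) * D + 1)) ^ 2) ^ (k * D) := by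
            rw [← pow_succ', ← pow_mul X (P * (k - 1) * D + 1)]; congr 2; rw [hM]; ring
        _ ≤ ((Q * A.card ^ P) ^ 2) ^ (k * D) :=
            Nat.pow_le_pow_left (Nat.pow_le_pow_left hA3 _) _
        _ = (Q ^ 2) ^ (k * D) * A.card ^ E := by
            rw [mul_pow, mul_pow, ← pow_mul A.card, ← pow_mul A.card, hE]
            congr 2
            ring
    · refine pow_pos (Nat.pos_of_ne_zero fun hq => ?_) _
      rw [hq, zero_mul] at hA3
      exact absurd hA3 (not_le.2 (pow_pos hX1 _))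
  refine le_of_pow_le_pow_left₀ hE0 (Nat.cast_nonneg _) ?_
  rw [← Real.rpow_natCast _ E, ← Real.rpow_mul (Nat.cast_nonneg _),
    show (1 - 1 / (k : ℝ) + 1 / (2 * (P : ℝ) * k * D)) * ((E : ℕ) : ℝ) = (M : ℝ) from ?_,
    Real.rpow_natCast]
  · exact_mod_cast hfin
  · have hkR : (k : ℝ) ≠ 0 := by exact_mod_cast (show k ≠ 0 by omega)
    have hPR : (P : ℝ) ≠ 0 := by exact_mod_cast hP.ne'
    have hDR : (D : ℝ) ≠ 0 := by exact_mod_cast hD.ne'
    rw [hE, hM]
    push_cast [Nat.cast_sub (show 1 ≤ k by omega)]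
    field_simp

end Vale.Agent.P042.Power
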