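import Vale.Agent.P042.Power.Phases

/-!
If the roots of `h` modulo some prime are simple and come from rational roots that are not
integers, some subset of `[1, N]` of size `c N ^ (1 - 1 / (2 k))` has no nonzero difference `h n`.
-/

namespace Vale.Agent.P042.Power

open Finset Polynomial

/-- A rational root `b / a` in lowest terms gives the factor `a X - b` over the integers. -/
lemma rat_root_factor {h : ℤ[X]} {q : ℚ} (hq : (h.map (Int.castRingHom ℚ)).eval q = 0) :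
    C (q.den : ℤ) * X - C q.num ∣ h := by
  have hcop : IsCoprime (q.den : ℤ) q.num :=
    (Int.isCoprime_iff_nat_coprime.2 (by simpa using q.reduced)).symm
  have hprim : (C (q.den : ℤ) * X - C q.num).IsPrimitive := by
    intro r hr
    rw [C_dvd_iff_dvd_coeff] at hr
    refine hcop.isUnit_of_dvd' ?_ ?_
    · have h1 := hr 1
      rwa [coeff_sub, coeff_C_mul, coeff_X_one, mul_one, coeff_C, if_neg one_ne_zero, sub_zero] at h1
    · simpa [coeff_C] using hr 0
  rw [IsPrimitive.Int.dvd_iff_map_cast_dvd_map_cast _ _ hprim]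
  have hden : (q.den : ℚ) ≠ 0 := Nat.cast_ne_zero.2 q.den_nz
  have e : (C (q.den : ℤ) * X - C q.num).map (Int.castRingHom ℚ)
      = C (q.den : ℚ) * (X - C q) := by
    rw [mul_sub, ← C_mul, mul_comm (q.den : ℚ) q, Rat.mul_den_eq_num]
    simp
  rw [e, (isUnit_C.2 hden.isUnit).mul_left_dvd, dvd_iff_isRoot]
  exact hq

/-- The main statement: exponent `1 - 1 / (2 k)`. -/
theorem half_lower_bound (h : ℤ[X]) (hk : 1 ≤ h.natDegree) (hlead : 0 < h.leadingCoeff)
    (p : ℕ) (hp : p.Prime)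
    (H : ∀ r : ℤ, (p : ℤ) ∣ h.eval r → ¬ (p : ℤ) ∣ h.derivative.eval r ∧
      ∃ q : ℚ, (h.map (Int.castRingHom ℚ)).eval q = 0 ∧ q.den ≠ 1 ∧ ¬ (p : ℤ) ∣ q.den ∧
        (p : ℤ) ∣ q.den * r - q.num) :
    ∃ c : ℝ, 0 < c ∧ ∃ N0 : ℕ, ∀ N : ℕ, N0 ≤ N → ∃ A : Finset ℕ, A ⊆ Finset.Icc 1 N ∧
      (∀ x ∈ A, ∀ y ∈ A, ∀ n : ℕ, 1 ≤ n → (x : ℤ) - y = h.eval (n : ℤ) → x = y) ∧
      c * (N : ℝ) ^ (1 - 1 / (2 * (h.natDegree : ℝ))) ≤ A.card := by
  set k := h.natDegree with hkdef
  have hpp : Prime (p : ℤ) := Nat.prime_iff_prime_int.1 hp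
  -- one root above each residue
  have hres : ∀ r : ℕ, ∃ q : ℚ, (p : ℤ) ∣ h.eval (r : ℤ) →
      (h.map (Int.castRingHom ℚ)).eval q = 0 ∧ q.den ≠ 1 ∧ ¬ (p : ℤ) ∣ q.den ∧
        (p : ℤ) ∣ q.den * (r : ℤ) - q.num := by
    intro r
    by_cases hr : (p : ℤ) ∣ h.eval (r : ℤ)
    · obtain ⟨q, hq⟩ := (H r hr).2
      exact ⟨q, fun _ => hq⟩
    · exact ⟨0, fun h' => absurd h' hr⟩
  choose qf hqf using hres
  set Sq := 1 + ∑ r ∈ range p, ((qf r).den + (qf r).num.natAbs) with hSq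
  obtain ⟨C1, hg⟩ := poly_size h k le_rfl (by rw [hkdef, coeff_natDegree]; exact hlead.ne')
  set G := C1 + 1 with hG
  set K := 40 * Sq * G + 1024 * Sq * Sq + 1 with hK
  have hkpos : k ≠ 0 := by omega
  set Q := (2 * 8 ^ p) ^ (2 * k) * ((p ^ 2 * K) ^ k * 2 ^ k) + 1 with hQ
  have hQR : (0 : ℝ) < Q := by exact_mod_cast Nat.succ_pos _
  clear_value Q K
  refine ⟨1 / (Q : ℝ), one_div_pos.2 hQR, 2 * p ^ 2 * K + 1, fun N hN => ?_⟩
  have hN1 : 1 ≤ N := by omega
  classical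
  have hexW : ∃ W, N ≤ W ^ k := ⟨N, Nat.le_self_pow hkpos N⟩
  set W := Nat.find hexW with hWdef
  have hW : N ≤ W ^ k := Nat.find_spec hexW
  have hW1 : 1 ≤ W := Nat.one_le_iff_ne_zero.2 fun h' => by
    rw [h', zero_pow hkpos] at hW; omega
  have hWN : W ^ k ≤ 2 ^ k * N := by
    have h1 := Nat.find_min hexW (show W - 1 < W by omega)
    push Not at h1
    rcases Nat.lt_or_ge W 2 with h2 | h2
    · rw [show W = 1 by omega, one_pow]
      exact Nat.one_le_iff_ne_zero.2 (Nat.mul_ne_zero (by positivity) (by omega))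
    · calc W ^ k ≤ (2 * (W - 1)) ^ k := Nat.pow_le_pow_left (by omega) k
        _ = 2 ^ k * (W - 1) ^ k := mul_pow _ _ _
        _ ≤ 2 ^ k * N := Nat.mul_le_mul_left _ h1.le
  have hexj : ∃ j, K * W ≤ (p ^ j) ^ 2 :=
    ⟨K * W, (Nat.lt_pow_self hp.one_lt).le.trans (Nat.le_self_pow two_ne_zero _)⟩
  set j := Nat.find hexj with hjdef
  set L := p ^ j with hLdef
  have hKW : K * W ≤ L ^ 2 := Nat.find_spec hexj
  have hKW0 : K ≤ K * W := Nat.le_mul_of_pos_right _ hW1
  have hSq1 : 1 ≤ Sq := by omega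
  have hL32 : 32 * Sq ≤ L := by
    by_contra hlt
    have h1 : L ^ 2 < (32 * Sq) ^ 2 := Nat.pow_lt_pow_left (by omega) two_ne_zero
    have h2 : (32 * Sq) ^ 2 = 1024 * Sq * Sq := by ring
    omega
  have hj0 : j ≠ 0 := fun h' => by rw [hLdef, h', pow_zero] at hL32; omega
  have hLup : L ^ 2 ≤ p ^ 2 * (K * W) := by
    have h1 := Nat.find_min hexj (show j - 1 < j by omega)
    push Not at h1
    calc L ^ 2 = p ^ 2 * (p ^ (j - 1)) ^ 2 := by
          rw [← mul_pow, ← pow_succ', hLdef, show j - 1 + 1 = j by omega]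
      _ ≤ p ^ 2 * (K * W) := Nat.mul_le_mul_left _ h1.le
  have hL0 : 0 < L := pow_pos hp.pos j
  have hpL : (p : ℤ) ∣ L := by
    rw [hLdef]; push_cast; exact dvd_pow_self _ hj0
  have hLN : L ≤ N := by
    have hWN' : W ≤ 2 * N := by
      refine (Nat.pow_le_pow_iff_left hkpos).1 (hWN.trans ?_)
      rw [mul_pow]
      exact Nat.mul_le_mul_left _ (Nat.le_self_pow hkpos N)
    refine (Nat.pow_le_pow_iff_left two_ne_zero).1 (hLup.trans ?_)
    calc p ^ 2 * (K * W) ≤ p ^ 2 * (K * (2 * N)) :=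
          Nat.mul_le_mul_left _ (Nat.mul_le_mul_left _ hWN')
      _ = (2 * p ^ 2 * K) * N := by ring
      _ ≤ N * N := Nat.mul_le_mul_right _ (by omega)
      _ = N ^ 2 := (sq N).symm
  set T := G * W / L + 1 with hT
  have hGW : L * (G * W / L) ≤ G * W := Nat.mul_div_le _ _
  have h8T : 8 * T ≤ L := by
    refine Nat.le_of_mul_le_mul_left (?_ : L * (8 * T) ≤ L * L) hL0
    have e1 : L * (8 * T) = 8 * (L * (G * W / L)) + 8 * L := by rw [hT]; ring
    have e2 : 16 * (G * W) ≤ L * L := by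
      rw [← sq, ← mul_assoc]
      refine le_trans (Nat.mul_le_mul_right _ ?_) hKW
      have h1 : G ≤ Sq * G := Nat.le_mul_of_pos_left _ hSq1
      rw [hK, mul_assoc 40]; omega
    have e3 : 16 * L ≤ L * L := Nat.mul_le_mul_right _ (by omega)
    omega
  -- frequencies
  have hphase : ∀ r : Fin p, ∃ θ : ℝ, ∀ n : ℕ, n ≤ G * W → (L : ℤ) ∣ h.eval (n : ℤ) →
      (p : ℤ) ∣ (n : ℤ) - (r : ℕ) →
      ∀ w : ℤ, 1 / 8 ≤ |θ * ((h.eval (n : ℤ) : ℤ) : ℝ) - w| := by
    intro r
    by_cases hex : ∃ n : ℕ, (L : ℤ) ∣ h.eval (n : ℤ) ∧ (p : ℤ) ∣ (n : ℤ) - (r : ℕ)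
    swap
    · exact ⟨0, fun n _ h1 h2 => absurd ⟨n, h1, h2⟩ hex⟩
    obtain ⟨n1, hn1, hn1r⟩ := hex
    set nr : ℕ := n1 % L with hnr
    have hnrL : nr < L := Nat.mod_lt _ hL0
    have hd : (L : ℤ) ∣ (nr : ℤ) - n1 := by
      rw [hnr]; push_cast
      exact ⟨-((n1 : ℤ) / L), by rw [Int.emod_def]; ring⟩
    have hLnr : (L : ℤ) ∣ h.eval (nr : ℤ) :=
      (dvd_iff_dvd_of_dvd_sub (hd.trans (sub_dvd_eval_sub _ _ h))).2 hn1
    have hnrr : (p : ℤ) ∣ (nr : ℤ) - (r : ℕ) := by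
      simpa using dvd_add (hpL.trans hd) hn1r
    have hpr : (p : ℤ) ∣ h.eval ((r : ℕ) : ℤ) :=
      (dvd_iff_dvd_of_dvd_sub (hnrr.trans (sub_dvd_eval_sub _ _ h))).1 (hpL.trans hLnr)
    obtain ⟨hq0, hq1, hqp, hqr⟩ := hqf r hpr
    set q := qf r with hq
    have hqS : q.den + q.num.natAbs < Sq := by
      have := single_le_sum (f := fun r => (qf r).den + (qf r).num.natAbs)
        (fun _ _ => Nat.zero_le _) (mem_range.2 r.2)
      simp only [← hq] at this
      omega
    obtain ⟨g, hgq⟩ := rat_root_factor hq0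
    have hderiv : ∀ m : ℤ, (p : ℤ) ∣ m - (r : ℕ) → ¬ (p : ℤ) ∣ h.derivative.eval m := by
      intro m hm
      exact (H m ((dvd_iff_dvd_of_dvd_sub (hm.trans (sub_dvd_eval_sub _ _ h))).2 hpr)).1
    have hlift : ∀ (m : ℤ) (i : ℕ), (p : ℤ) ∣ m - (r : ℕ) → (p : ℤ) ^ i ∣ h.eval m →
        (p : ℤ) ^ i ∣ q.den * m - q.num := by
      intro m i hm hi
      have hm' : (p : ℤ) ∣ q.den * m - q.num := by
        rw [show (q.den : ℤ) * m - q.num
          = q.den * (m - (r : ℕ)) + (q.den * (r : ℕ) - q.num) by ring]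
        exact dvd_add (dvd_mul_of_dvd_right hm _) hqr
      refine hpp.pow_dvd_of_dvd_mul_right i (b := g.eval m) (fun hd' => ?_) ?_
      · refine hderiv m hm ?_
        rw [hgq, derivative_mul, eval_add, eval_mul, eval_mul]
        refine dvd_add (dvd_mul_of_dvd_right hd' _) (dvd_mul_of_dvd_left ?_ _)
        simpa using hm'
      · rw [show ((q.den : ℤ) * m - q.num) * g.eval m = h.eval m by rw [hgq]; simp]
        exact hi
    have hinv : ∃ H' : ℤ, (L : ℤ) ∣ h.derivative.eval (nr : ℤ) * H' - 1 := by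
      obtain ⟨a, b, hab⟩ := (hpp.coprime_iff_not_dvd.2 (hderiv nr hnrr)).pow_left (m := j)
      exact ⟨b, -a, by rw [hLdef]; push_cast; linear_combination hab⟩
    have hv : ∀ v : ℤ, 4 * (L / (8 * T)) * v.natAbs < L →
        ¬ (L : ℤ) * L ∣ h.eval ((nr : ℤ) + L * v) := by
      intro v hv hd2
      have hT1 : 1 ≤ T := Nat.succ_pos _
      have hv4 : v.natAbs ≤ 4 * T := by
        by_contra hlt
        have h8 : L < 8 * T * (L / (8 * T) + 1) := Nat.lt_mul_div_succ L (by omega)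
        have h9 : 4 * (L / (8 * T)) * (4 * T + 1) ≤ 4 * (L / (8 * T)) * v.natAbs :=
          Nat.mul_le_mul_left _ (by omega)
        have h10 : 1 ≤ L / (8 * T) := (Nat.one_le_div_iff (by omega)).2 h8T
        have h11 : 8 * T * (L / (8 * T) + 1) ≤ 4 * (L / (8 * T)) * (4 * T + 1) := by
          calc 8 * T * (L / (8 * T) + 1) ≤ 8 * T * (2 * (L / (8 * T))) :=
                Nat.mul_le_mul_left _ (by omega)
            _ = 4 * (L / (8 * T)) * (4 * T) := by ring
            _ ≤ _ := Nat.mul_le_mul_left _ (by omega)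
        omega
      set m := (nr : ℤ) + L * v with hm
      have hmr : (p : ℤ) ∣ m - (r : ℕ) := by
        rw [hm, add_sub_right_comm]; exact dvd_add hnrr (dvd_mul_of_dvd_left hpL _)
      have h2 : (p : ℤ) ^ (j + j) ∣ q.den * m - q.num :=
        hlift m _ hmr (by rw [hLdef] at hd2; push_cast at hd2; rwa [pow_add])
      have h3 : ((q.den : ℤ) * m - q.num).natAbs < L * L := by
        have hmS : m.natAbs ≤ L + L * (4 * T) := by
          refine (Int.natAbs_add_le _ _).trans ?_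
          rw [Int.natAbs_natCast, Int.natAbs_mul, Int.natAbs_natCast]
          exact Nat.add_le_add hnrL.le (Nat.mul_le_mul_left _ hv4)
        have h5 : ((q.den : ℤ) * m - q.num).natAbs ≤ q.den * m.natAbs + q.num.natAbs := by
          refine (Int.natAbs_sub_le _ _).trans ?_
          rw [Int.natAbs_mul, Int.natAbs_natCast]
        have h6 : L * T ≤ G * W + L := by rw [hT, mul_add_one]; omega
        have h7 : q.den * m.natAbs ≤ Sq * (L + L * (4 * T)) :=
          Nat.mul_le_mul (by omega) hmS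
        have h8 : Sq * (L + L * (4 * T)) ≤ Sq * (4 * (G * W) + 5 * L) :=
          Nat.mul_le_mul_left _ (by rw [← mul_assoc, mul_comm L 4, mul_assoc]; omega)
        have h9 : 40 * Sq * G * W < K * W :=
          Nat.mul_lt_mul_of_pos_right (by omega) hW1
        have h10 : 32 * Sq * L ≤ L ^ 2 := by rw [sq]; exact Nat.mul_le_mul_right _ hL32
        have h11 : Sq ≤ Sq * L := Nat.le_mul_of_pos_right _ hL0
        have e12 : Sq * (4 * (G * W) + 5 * L) = 4 * (Sq * G * W) + 5 * (Sq * L) := by ring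
        have e13 : 40 * Sq * G * W = 40 * (Sq * G * W) := by ring
        have e14 : 32 * Sq * L = 32 * (Sq * L) := mul_assoc _ _ _
        rw [← sq]
        omega
      have h4 : (q.den : ℤ) * m - q.num = 0 := by
        refine Int.natAbs_eq_zero.1 (Nat.eq_zero_of_dvd_of_lt ?_ h3)
        rw [hLdef, ← pow_add]
        exact Int.natCast_dvd.1 (by push_cast; exact h2)
      -- a root in lowest terms with denominator `≠ 1` is no integer
      have h5 : (q.den : ℤ) ∣ q.num := ⟨m, by linarith⟩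
      exact hq1 (Nat.eq_one_of_dvd_coprimes q.reduced (Int.natCast_dvd.1 h5) dvd_rfl)
    obtain ⟨θ, hθ⟩ := phase_good h T L nr hL0 hLnr hinv hv
    refine ⟨θ, fun n hn hLn hnr' w => ?_⟩
    have hs : (L : ℤ) ∣ (n : ℤ) - nr := by
      have hLp : (L : ℤ) = (p : ℤ) ^ j := by rw [hLdef]; push_cast; rfl
      rw [hLp] at hLn hLnr ⊢
      exact lift_unique hp hLnr hLn (by simpa using dvd_sub hnr' hnrr) (hderiv nr hnrr)
    obtain ⟨s, hs⟩ := hs
    have hsT : s.natAbs ≤ T := by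
      have h1 : L * s.natAbs ≤ n + nr := by
        have : ((L : ℤ) * s).natAbs ≤ n + nr := by
          rw [← hs]; exact (Int.natAbs_sub_le _ _).trans (by simp)
        rwa [Int.natAbs_mul, Int.natAbs_natCast] at this
      have h2 : L * s.natAbs < L * (G * W / L + 2) := by
        have := Nat.lt_mul_div_succ (G * W) hL0
        rw [mul_add_one] at this
        rw [mul_add, mul_comm L 2]
        omega
      have := Nat.lt_of_mul_lt_mul_left h2
      omega
    have := hθ s hsT w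
    rwa [← hs, add_sub_cancel] at this
  choose θ hθ using hphase
  set S := (range (N / L)).image fun m => L * m + 1 with hS
  have hScard : S.card = N / L := by
    rw [hS, card_image_of_injective _ fun a b hab => Nat.eq_of_mul_eq_mul_left hL0
      (Nat.add_right_cancel hab), card_range]
  have hSsub : S ⊆ Finset.Icc 1 N := by
    intro x hx
    obtain ⟨m, hm, rfl⟩ := mem_image.1 hx
    rw [mem_range] at hm
    refine mem_Icc.2 ⟨by omega, le_trans ?_ (Nat.mul_div_le N L)⟩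
    calc L * m + 1 ≤ L * (m + 1) := by rw [mul_add_one]; omega
      _ ≤ L * (N / L) := Nat.mul_le_mul_left _ hm
  obtain ⟨A, hAS, hAcard, hAbohr⟩ := exists_bohr_part S θ (fun x : ℕ => (x : ℤ))
  refine ⟨A, hAS.trans hSsub, ?_, ?_⟩
  · intro x hx y hy n hn hxy
    exfalso
    have hLn : (L : ℤ) ∣ h.eval (n : ℤ) := by
      obtain ⟨m, -, rfl⟩ := mem_image.1 (hAS hx)
      obtain ⟨m', -, rfl⟩ := mem_image.1 (hAS hy)
      exact ⟨(m : ℤ) - m', by rw [← hxy]; push_cast; ring⟩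
    have hxI := mem_Icc.1 (hSsub (hAS hx))
    have hyI := mem_Icc.1 (hSsub (hAS hy))
    have hnC : n ≤ G * W := by
      rcases le_or_gt C1 n with hC1n | hC1n
      · have h1 := ((hg n).2 (by simpa using hC1n)).1
        rw [Int.natAbs_natCast] at h1
        have h2 : (h.eval (n : ℤ)).natAbs ≤ W ^ k := by rw [← hxy]; omega
        refine (Nat.pow_le_pow_iff_left hkpos).1 ((h1.trans (Nat.mul_le_mul_left _ h2)).trans ?_)
        rw [mul_pow]
        exact Nat.mul_le_mul_right _ ((show C1 ≤ G by omega).trans (Nat.le_self_pow hkpos _))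
      · exact le_trans (by omega) (Nat.le_mul_of_pos_right _ hW1)
    have hnr : (p : ℤ) ∣ (n : ℤ) - ((n % p : ℕ) : ℤ) :=
      ⟨(n / p : ℕ), by rw [sub_eq_iff_eq_add]; exact_mod_cast (Nat.div_add_mod n p).symm⟩
    obtain ⟨w, hw⟩ := hAbohr x hx y hy ⟨n % p, Nat.mod_lt _ hp.pos⟩
    have h1 := hθ ⟨n % p, Nat.mod_lt _ hp.pos⟩ n hnC hLn hnr w
    rw [← hxy] at h1
    push_cast at h1 hw
    linarith
  · have h1 : N ≤ 2 * L * (N / L) := by
      have h2 : 1 ≤ N / L := (Nat.one_le_div_iff hL0).2 hLN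
      have h3 : N < L * (N / L + 1) := Nat.lt_mul_div_succ N hL0
      calc N ≤ L * (N / L + 1) := h3.le
        _ ≤ L * (2 * (N / L)) := Nat.mul_le_mul_left _ (by omega)
        _ = 2 * L * (N / L) := by ring
    rw [hScard] at hAcard
    have h4 : N ≤ 2 * 8 ^ p * (L * A.card) :=
      h1.trans ((Nat.mul_le_mul_left _ hAcard).trans (le_of_eq (by ring)))
    have h5 : L ^ (2 * k) ≤ (p ^ 2 * K) ^ k * 2 ^ k * N := by
      rw [pow_mul, mul_assoc]
      refine (Nat.pow_le_pow_left hLup k).trans ?_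
      rw [← mul_assoc, mul_pow (p ^ 2 * K)]
      exact Nat.mul_le_mul_left _ hWN
    have h6 : N ^ (2 * k) ≤ Q * A.card ^ (2 * k) * N := by
      calc N ^ (2 * k) ≤ (2 * 8 ^ p * (L * A.card)) ^ (2 * k) := Nat.pow_le_pow_left h4 _
        _ = (2 * 8 ^ p) ^ (2 * k) * A.card ^ (2 * k) * L ^ (2 * k) := by
            rw [mul_pow, mul_pow L]; ring
        _ ≤ (2 * 8 ^ p) ^ (2 * k) * A.card ^ (2 * k) * ((p ^ 2 * K) ^ k * 2 ^ k * N) :=
            Nat.mul_le_mul_left _ h5
        _ = (2 * 8 ^ p) ^ (2 * k) * ((p ^ 2 * K) ^ k * 2 ^ k) * A.card ^ (2 * k) * N := by ring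
        _ ≤ Q * A.card ^ (2 * k) * N :=
            Nat.mul_le_mul_right _ (Nat.mul_le_mul_right _ (by rw [hQ]; omega))
    have h7 : N ^ (2 * k - 1) ≤ (Q * A.card) ^ (2 * k) := by
      refine Nat.le_of_mul_le_mul_right (?_ : N ^ (2 * k - 1) * N ≤ (Q * A.card) ^ (2 * k) * N) hN1
      rw [← pow_succ, show 2 * k - 1 + 1 = 2 * k by omega, mul_pow]
      exact h6.trans (Nat.mul_le_mul_right _ (Nat.mul_le_mul_right _
        (Nat.le_self_pow (by omega) _)))
    rw [one_div_mul_eq_div, div_le_iff₀ hQR, mul_comm (A.card : ℝ)]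
    refine le_of_pow_le_pow_left₀ (n := 2 * k) (by omega)
      (mul_nonneg hQR.le (Nat.cast_nonneg _)) ?_
    rw [← Real.rpow_natCast _ (2 * k), ← Real.rpow_mul (Nat.cast_nonneg _),
      show (1 - 1 / (2 * (k : ℝ))) * ((2 * k : ℕ) : ℝ) = ((2 * k - 1 : ℕ) : ℝ) from ?_,
      Real.rpow_natCast]
    · exact_mod_cast h7
    · have hkR : (k : ℝ) ≠ 0 := by exact_mod_cast hkpos
      rw [Nat.cast_sub (show 1 ≤ 2 * k by omega)]
      push_cast
      field_simp

end Vale.Agent.P042.Power
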