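import Mathlib

/-!
A digit set avoiding all rational multiples `c * q ^ k` of a fixed integer.
-/

namespace Vale.Agent.P042.Power

open Finset

/-- A prime `P` and a residue `x` such that neither `x` nor `-x` is `c` times a `k`-th power. -/
lemma exists_residue (k : ℕ) (hk : 2 ≤ k) (c : ℤ) (hc : c ≠ 0) :
    ∃ P x : ℕ, P.Prime ∧ ¬ (P : ℤ) ∣ c ∧ 0 < x ∧ x < P ∧
      ∀ s : ZMod P, (c : ZMod P) * s ^ k ≠ x ∧ (c : ZMod P) * s ^ k ≠ -(x : ZMod P) := by
  obtain ⟨P, hP, hgt, hmod⟩ :=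
    Nat.exists_prime_gt_modEq_one (k := 2 * k) c.natAbs (by omega)
  have : Fact P.Prime := ⟨hP⟩
  have hPc : ¬ (P : ℤ) ∣ c := fun hd => by
    rw [Int.natCast_dvd] at hd
    have := Nat.le_of_dvd (Int.natAbs_pos.2 hc) hd
    omega
  have hdvd : 2 * k ∣ P - 1 := (Nat.modEq_iff_dvd' hP.one_lt.le).1 hmod.symm
  -- an element of order 2k
  obtain ⟨g, hg⟩ := IsCyclic.exists_generator (α := (ZMod P)ˣ)
  have hord : orderOf g = P - 1 := by
    rw [orderOf_eq_card_of_forall_mem_zpowers hg, Nat.card_eq_fintype_card, ZMod.card_units]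
  obtain ⟨m, hm⟩ := hdvd
  have hm0 : m ≠ 0 := fun h => by
    have := hP.two_le
    rw [h, mul_zero] at hm; omega
  set ζ := g ^ m with hζ
  have hζord : orderOf ζ = 2 * k := by
    rw [hζ, orderOf_pow' g hm0, hord, hm, Nat.gcd_mul_left_left, Nat.mul_div_cancel _ (by omega)]
  have hneg : ((ζ ^ k : (ZMod P)ˣ) : ZMod P) = -1 := by
    have h1 : ((ζ ^ k : (ZMod P)ˣ) : ZMod P) * ((ζ ^ k : (ZMod P)ˣ) : ZMod P) = 1 := by
      rw [← Units.val_mul, ← pow_add, ← two_mul, ← hζord, pow_orderOf_eq_one, Units.val_one]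
    rcases mul_self_eq_one_iff.1 h1 with h | h
    · exfalso
      have h2 : ζ ^ k = 1 := Units.ext h
      have := orderOf_dvd_of_pow_eq_one h2
      rw [hζord] at this
      have := Nat.le_of_dvd (by omega) this
      omega
    · exact h
  -- a unit which is no k-th power
  have hns : ¬ Function.Surjective fun u : (ZMod P)ˣ => u ^ k := fun hs => by
    have hinj := Finite.injective_iff_surjective.2 hs
    have h1 : (ζ ^ 2) ^ k = (1 : (ZMod P)ˣ) ^ k := by
      rw [← pow_mul, ← hζord, pow_orderOf_eq_one, one_pow]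
    have h2 : ζ ^ 2 = 1 := hinj h1
    have := Nat.le_of_dvd (by norm_num) (orderOf_dvd_of_pow_eq_one h2)
    rw [hζord] at this
    omega
  obtain ⟨u, hu⟩ := not_forall.1 hns
  have hcu : (c : ZMod P) ≠ 0 := fun h => hPc ((ZMod.intCast_zmod_eq_zero_iff_dvd _ _).1 h)
  set y : ZMod P := (c : ZMod P) * (u : ZMod P) with hy
  have hy0 : y ≠ 0 := mul_ne_zero hcu (Units.ne_zero u)
  have key : ∀ s : ZMod P, (c : ZMod P) * s ^ k ≠ y := fun s hs => by
    have h1 : s ^ k = (u : ZMod P) := mul_left_cancel₀ hcu (hs.trans hy)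
    have hs0 : s ≠ 0 := fun h => Units.ne_zero u (by rw [← h1, h, zero_pow (by omega)])
    exact hu ⟨Units.mk0 s hs0, Units.ext (by simpa using h1)⟩
  refine ⟨P, y.val, hP, hPc, Nat.pos_of_ne_zero fun h => hy0 ((ZMod.val_eq_zero y).1 h),
    ZMod.val_lt y, fun s => ?_⟩
  rw [ZMod.natCast_zmod_val]
  refine ⟨key s, fun h => key ((ζ : ZMod P) * s) ?_⟩
  rw [mul_pow, ← Units.val_pow_eq_pow_val, hneg]
  linear_combination -h

/-- If `P ^ k` does not divide `Δ` then the rational `k`-th power ratio is a unit residue. -/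
lemma unit_ratio {P k : ℕ} (hP : P.Prime) (hk : k ≠ 0) {c : ℤ} (hc : ¬ (P : ℤ) ∣ c) :
    ∀ (N : ℕ) (Δ a t : ℤ), a.natAbs = N → a ≠ 0 → ¬ (P : ℤ) ^ k ∣ Δ → Δ * a ^ k = c * t ^ k →
      ¬ (P : ℤ) ∣ Δ ∧ ∃ s : ZMod P, (Δ : ZMod P) = (c : ZMod P) * s ^ k := by
  have : Fact P.Prime := ⟨hP⟩
  have hp : Prime (P : ℤ) := Nat.prime_iff_prime_int.1 hP
  intro N
  induction N using Nat.strong_induction_on with
  | _ N ih =>
    intro Δ a t hN ha hΔ he
    by_cases hPa : (P : ℤ) ∣ a
    · obtain ⟨a', rfl⟩ := hPa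
      have h1 : (P : ℤ) ∣ c * t ^ k := ⟨Δ * (P : ℤ) ^ (k - 1) * a' ^ k, by
        rw [← he, mul_pow]
        obtain ⟨i, rfl⟩ := Nat.exists_eq_succ_of_ne_zero hk
        rw [Nat.succ_sub_one, pow_succ]
        ring⟩
      obtain ⟨t', rfl⟩ := hp.dvd_of_dvd_pow ((hp.dvd_mul.1 h1).resolve_left hc)
      have ha' : a' ≠ 0 := fun h => ha (by rw [h, mul_zero])
      refine ih a'.natAbs ?_ Δ a' t' rfl ha' hΔ ?_
      · rw [← hN, Int.natAbs_mul, Int.natAbs_natCast]
        exact lt_mul_left (Int.natAbs_pos.2 ha') hP.one_lt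
      · refine mul_left_cancel₀ (pow_ne_zero k hp.ne_zero) ?_
        rw [mul_pow, mul_pow] at he
        linear_combination he
    · have hPt : ¬ (P : ℤ) ∣ t := fun hd => by
        have h1 : (P : ℤ) ^ k ∣ Δ * a ^ k := he ▸ (dvd_mul_of_dvd_right (pow_dvd_pow_of_dvd hd k) c)
        exact hΔ (hp.pow_dvd_of_dvd_mul_right k (fun h => hPa (hp.dvd_of_dvd_pow h)) h1)
      refine ⟨fun hd => ?_, (t : ZMod P) * (a : ZMod P)⁻¹, ?_⟩
      · rcases hp.dvd_mul.1 (he ▸ dvd_mul_of_dvd_left hd (a ^ k)) with h | h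
        · exact hc h
        · exact hPt (hp.dvd_of_dvd_pow h)
      · have ha0 : (a : ZMod P) ≠ 0 := fun h => hPa ((ZMod.intCast_zmod_eq_zero_iff_dvd _ _).1 h)
        have h1 := congrArg (Int.cast : ℤ → ZMod P) he
        push_cast at h1
        rw [mul_pow, inv_pow, ← mul_assoc, eq_mul_inv_iff_mul_eq₀ (pow_ne_zero k ha0)]
        exact h1

/-- Sets in `[0, Q ^ i)`, `Q = P ^ k`, with `(2 P ^ (k - 1)) ^ i` elements and no nonzero
difference of the form `c * (t / a) ^ k`. -/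
theorem exists_avoiding (k : ℕ) (hk : 2 ≤ k) (c : ℤ) (hc : c ≠ 0) :
    ∃ P : ℕ, P.Prime ∧ ∀ i : ℕ, ∃ R : Finset ℕ, R.card = (2 * P ^ (k - 1)) ^ i ∧
      (∀ u ∈ R, u < (P ^ k) ^ i) ∧
      ∀ u ∈ R, ∀ v ∈ R, ∀ a t : ℤ, a ≠ 0 → ((u : ℤ) - v) * a ^ k = c * t ^ k → u = v := by
  obtain ⟨P, x, hP, hPc, hx0, hxP, hx⟩ := exists_residue k hk c hc
  refine ⟨P, hP, fun i => ?_⟩
  have hp : Prime (P : ℤ) := Nat.prime_iff_prime_int.1 hP
  set Q := P ^ k with hQ
  have hQP : Q = P * P ^ (k - 1) := by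
    rw [hQ, ← pow_succ']; congr 1; omega
  set D := (({0, x} : Finset ℕ) ×ˢ range (P ^ (k - 1))).image fun z => z.1 + P * z.2 with hD
  have hDlt : ∀ d ∈ D, d < Q := by
    intro d hd
    obtain ⟨⟨x0, z⟩, hz, rfl⟩ := mem_image.1 hd
    simp only [mem_product, mem_insert, mem_singleton, mem_range] at hz
    have h1 : x0 < P := by rcases hz.1 with h | h <;> omega
    calc x0 + P * z < P * (z + 1) := by rw [mul_add_one]; omega
      _ ≤ P * P ^ (k - 1) := Nat.mul_le_mul_left _ hz.2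
      _ = Q := hQP.symm
  have hDcard : D.card = 2 * P ^ (k - 1) := by
    rw [hD, card_image_of_injOn, card_product, card_range, card_insert_of_notMem (by simp; omega),
      card_singleton]
    rintro ⟨a, b⟩ hab ⟨a', b'⟩ hab' he
    simp only [coe_product, Set.mem_prod, mem_coe, mem_insert, mem_singleton] at hab hab'
    have h1 : a < P := by rcases hab.1 with h | h <;> omega
    have h2 : a' < P := by rcases hab'.1 with h | h <;> omega
    simp only at he
    have e1 : a = a' := by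
      have := congrArg (· % P) he
      simpa [Nat.add_mul_mod_self_left, Nat.mod_eq_of_lt h1, Nat.mod_eq_of_lt h2] using this
    subst e1
    exact Prod.ext rfl (Nat.eq_of_mul_eq_mul_left hP.pos (Nat.add_left_cancel he))
  have hDdiff : ∀ d ∈ D, ∀ d' ∈ D, ((d : ℤ) - d' : ℤ) = 0 ∨ ((d : ZMod P) - d' = 0) ∨
      ((d : ZMod P) - d' = x) ∨ ((d : ZMod P) - d' = -(x : ZMod P)) := by
    intro d hd d' hd'
    obtain ⟨⟨a, z⟩, hz, rfl⟩ := mem_image.1 hd
    obtain ⟨⟨a', z'⟩, hz', rfl⟩ := mem_image.1 hd'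
    simp only [mem_product, mem_insert, mem_singleton] at hz hz'
    rcases hz.1 with rfl | rfl <;> rcases hz'.1 with rfl | rfl <;> simp
  induction i with
  | zero => exact ⟨{0}, by simp, by simp, fun u hu v hv _ _ _ _ => by simp_all⟩
  | succ i ih =>
    obtain ⟨R, hRc, hRlt, hR⟩ := ih
    refine ⟨(D ×ˢ R).image fun z => z.1 + Q * z.2, ?_, ?_, ?_⟩
    · rw [card_image_of_injOn, card_product, hDcard, hRc, pow_succ']
      rintro ⟨a, b⟩ hab ⟨a', b'⟩ hab' he
      simp only [coe_product, Set.mem_prod, mem_coe] at hab hab'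
      have h1 := hDlt a hab.1
      have h2 := hDlt a' hab'.1
      simp only at he
      have e1 : a = a' := by
        have := congrArg (· % Q) he
        simpa [Nat.add_mul_mod_self_left, Nat.mod_eq_of_lt h1, Nat.mod_eq_of_lt h2] using this
      subst e1
      exact Prod.ext rfl (Nat.eq_of_mul_eq_mul_left (pow_pos hP.pos k) (Nat.add_left_cancel he))
    · intro u hu
      obtain ⟨⟨d, r⟩, hdr, rfl⟩ := mem_image.1 hu
      rw [mem_product] at hdr
      calc d + Q * r < Q * (r + 1) := by rw [mul_add_one]; have := hDlt d hdr.1; omega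
        _ ≤ Q * Q ^ i := Nat.mul_le_mul_left _ (hRlt r hdr.2)
        _ = Q ^ (i + 1) := (pow_succ' Q i).symm
    · intro u hu v hv a t ha he
      obtain ⟨⟨d, r⟩, hdr, rfl⟩ := mem_image.1 hu
      obtain ⟨⟨d', r'⟩, hdr', rfl⟩ := mem_image.1 hv
      rw [mem_product] at hdr hdr'
      have hd1 := hDlt d hdr.1
      have hd2 := hDlt d' hdr'.1
      by_cases hdd : d = d'
      · subst hdd
        have h0 : ((r : ℤ) - r') * (P : ℤ) ^ k * a ^ k = c * t ^ k := by
          rw [← he, hQ]; push_cast; ring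
        have hPt : (P : ℤ) ∣ t := by
          have hh : (P : ℤ) ∣ c * t ^ k := by
            rw [← h0]
            exact dvd_mul_of_dvd_left (dvd_mul_of_dvd_right (dvd_pow_self _ (by omega)) _) _
          exact hp.dvd_of_dvd_pow ((hp.dvd_mul.1 hh).resolve_left hPc)
        obtain ⟨t', rfl⟩ := hPt
        have := hR r hdr.2 r' hdr'.2 a t' ha (by
          refine mul_left_cancel₀ (pow_ne_zero k hp.ne_zero) ?_
          rw [mul_pow] at h0
          linear_combination h0)
        rw [this]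
      · exfalso
        set Δ : ℤ := ((d + Q * r : ℕ) : ℤ) - ((d' + Q * r' : ℕ) : ℤ) with hΔ
        have hnd : ¬ (P : ℤ) ^ k ∣ Δ := by
          intro hd
          have h1 : (Q : ℤ) ∣ (d : ℤ) - d' := by
            have e : (d : ℤ) - d' = Δ - (Q : ℤ) * ((r : ℤ) - r') := by
              rw [hΔ]; push_cast; ring
            rw [e]
            refine dvd_sub ?_ (dvd_mul_right _ _)
            rwa [hQ, Nat.cast_pow]
          have := Int.eq_zero_of_abs_lt_dvd h1 (by rw [abs_lt]; omega)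
          omega
        obtain ⟨hPΔ, s, hs⟩ := unit_ratio hP (by omega) hPc _ Δ a t rfl ha hnd he
        have hcast : (Δ : ZMod P) = (d : ZMod P) - d' := by
          rw [hΔ, hQ]
          push_cast
          simp [zero_pow (show k ≠ 0 by omega)]
        have hne : (Δ : ZMod P) ≠ 0 := fun h => hPΔ ((ZMod.intCast_zmod_eq_zero_iff_dvd _ _).1 h)
        rcases hDdiff d hdr.1 d' hdr'.1 with h | h | h | h
        · omega
        · exact hne (hcast.trans h)
        · exact (hx s).1 (by rw [← hs, hcast, h])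
        · exact (hx s).2 (by rw [← hs, hcast, h])

end Vale.Agent.P042.Power
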