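import Mathlib

/-!
A squarefree integer polynomial has only simple roots modulo all large primes.
-/

namespace Vale.Agent.P042.Power

open Polynomial

/-- If `h` is separable over `ℚ` then modulo some prime every root of `h` is simple. -/
theorem exists_prime_of_separable (h : ℤ[X]) (hs : (h.map (Int.castRingHom ℚ)).Separable) :
    ∃ p : ℕ, p.Prime ∧ ∀ r : ℤ, (p : ℤ) ∣ h.eval r → ¬ (p : ℤ) ∣ h.derivative.eval r := by
  obtain ⟨u, v, huv⟩ := hs
  obtain ⟨b1, hn1, hb1⟩ := IsLocalization.integerNormalization_spec (nonZeroDivisors ℤ) u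
  obtain ⟨b2, hn2, hb2⟩ := IsLocalization.integerNormalization_spec (nonZeroDivisors ℤ) v
  set u0 := IsLocalization.integerNormalization (nonZeroDivisors ℤ) u
  set v0 := IsLocalization.integerNormalization (nonZeroDivisors ℤ) v
  rw [algebraMap_int_eq, zsmul_eq_mul] at hb1 hb2
  set D : ℤ := b1 * b2 with hD
  have hD0 : D ≠ 0 :=
    mul_ne_zero (nonZeroDivisors.ne_zero hn1) (nonZeroDivisors.ne_zero hn2)
  have key : C b2 * u0 * h + C b1 * v0 * derivative h = C D := by
    refine map_injective (Int.castRingHom ℚ) (Int.castRingHom ℚ).injective_int ?_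
    simp only [Polynomial.map_add, Polynomial.map_mul, Polynomial.map_intCast, eq_intCast,
      hb1, hb2, hD, Int.cast_mul]
    rw [← derivative_map]
    linear_combination ((b1 : ℚ[X]) * (b2 : ℚ[X])) * huv
  obtain ⟨p, hpD, hp⟩ := Nat.exists_infinite_primes (D.natAbs + 1)
  refine ⟨p, hp, fun r h1 h2 => ?_⟩
  have h3 : (p : ℤ) ∣ D := by
    have e := congrArg (fun q : ℤ[X] => q.eval r) key
    simp only [eval_add, eval_mul, eval_C] at e
    rw [← e]
    exact dvd_add (dvd_mul_of_dvd_right h1 _) (dvd_mul_of_dvd_right h2 _)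
  have h4 := Int.natAbs_dvd_natAbs.2 h3
  rw [Int.natAbs_natCast] at h4
  have := Nat.le_of_dvd (Int.natAbs_pos.2 hD0) h4
  omega

end Vale.Agent.P042.Power
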