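import Vale.Agent.P042.Power.Half

/-!
For a polynomial with as many rational roots as its degree, some prime separates all roots.
-/

namespace Vale.Agent.P042.Power

open Finset Polynomial

/-- If `h` has `natDegree h` distinct rational roots, none of them an integer, then modulo some
prime all roots are simple reductions of non-integral rational roots. -/
theorem exists_prime_of_nonint_roots (h : ℤ[X]) (h0 : h ≠ 0)
    (hroots : (h.map (Int.castRingHom ℚ)).roots.toFinset.card = h.natDegree)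
    (hni : ∀ z : ℤ, h.eval z ≠ 0) :
    ∃ p : ℕ, p.Prime ∧ ∀ r : ℤ, (p : ℤ) ∣ h.eval r → ¬ (p : ℤ) ∣ h.derivative.eval r ∧
      ∃ q : ℚ, (h.map (Int.castRingHom ℚ)).eval q = 0 ∧ q.den ≠ 1 ∧ ¬ (p : ℤ) ∣ q.den ∧
        (p : ℤ) ∣ q.den * r - q.num := by
  classical
  set Z := (h.map (Int.castRingHom ℚ)).roots.toFinset with hZ
  set D := h.leadingCoeff.natAbs + ∑ z ∈ Z, z.den
    + ∑ z ∈ Z, ∑ w ∈ Z, (z.num * w.den - w.num * z.den).natAbs with hD
  obtain ⟨p, hpD, hp⟩ := Nat.exists_infinite_primes (D + 1)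
  refine ⟨p, hp, ?_⟩
  have : Fact p.Prime := ⟨hp⟩
  have hpp : Prime (p : ℤ) := Nat.prime_iff_prime_int.1 hp
  have hsmall : ∀ m : ℤ, m ≠ 0 → m.natAbs ≤ D → (m : ZMod p) ≠ 0 := by
    intro m hm hle hm0
    have := Int.natAbs_dvd_natAbs.2 ((ZMod.intCast_zmod_eq_zero_iff_dvd _ _).1 hm0)
    rw [Int.natAbs_natCast] at this
    have := Nat.le_of_dvd (Int.natAbs_pos.2 hm) this
    omega
  have hden : ∀ z ∈ Z, ((z.den : ℤ) : ZMod p) ≠ 0 := by
    intro z hz
    refine hsmall _ (by exact_mod_cast z.den_nz) ?_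
    have := single_le_sum (f := fun z : ℚ => z.den) (fun _ _ => Nat.zero_le _) hz
    rw [Int.natAbs_natCast]
    omega
  set hb := h.map (Int.castRingHom (ZMod p)) with hhb
  have hlead : (Int.castRingHom (ZMod p)) h.leadingCoeff ≠ 0 :=
    hsmall _ (leadingCoeff_ne_zero.2 h0) (by omega)
  have hdeg : hb.natDegree = h.natDegree := natDegree_map_of_leadingCoeff_ne_zero _ hlead
  have hb0 : hb ≠ 0 := fun he => hlead (by
    have := congrArg (fun q : (ZMod p)[X] => q.coeff h.natDegree) he
    simpa [hhb, coeff_map] using this)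
  set ψ : ℚ → ZMod p := fun z => (z.num : ZMod p) * ((z.den : ℤ) : ZMod p)⁻¹ with hψ
  have hinj : Set.InjOn ψ Z := by
    intro z hz w hw he
    simp only [hψ] at he
    rw [← div_eq_mul_inv, ← div_eq_mul_inv, div_eq_div_iff (hden z hz) (hden w hw)] at he
    by_contra hne
    refine hsmall (z.num * w.den - w.num * z.den) ?_ ?_ ?_
    · rw [sub_ne_zero]; exact fun e => hne (Rat.eq_iff_mul_eq_mul.2 e)
    · have h1 := single_le_sum
        (f := fun w : ℚ => (z.num * w.den - w.num * z.den).natAbs) (fun _ _ => Nat.zero_le _) hw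
      have h2 := single_le_sum
        (f := fun z : ℚ => ∑ w ∈ Z, (z.num * w.den - w.num * z.den).natAbs)
        (fun _ _ => Nat.zero_le _) hz
      omega
    · push_cast at he ⊢; rw [he, sub_self]
  have hrootq : ∀ z ∈ Z, (h.map (Int.castRingHom ℚ)).eval z = 0 := by
    intro z hz
    rw [hZ, Multiset.mem_toFinset] at hz
    exact (mem_roots'.1 hz).2
  have hsub : Z.image ψ ⊆ hb.roots.toFinset := by
    intro x hx
    obtain ⟨z, hz, rfl⟩ := mem_image.1 hx
    rw [Multiset.mem_toFinset, mem_roots hb0, IsRoot.def]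
    obtain ⟨n, hn⟩ := ZMod.intCast_surjective (ψ z)
    have hdn : (p : ℤ) ∣ (z.den : ℤ) * n - z.num := by
      rw [← ZMod.intCast_zmod_eq_zero_iff_dvd, Int.cast_sub, Int.cast_mul, hn, hψ, sub_eq_zero]
      exact (mul_left_comm _ _ _).trans (by rw [mul_inv_cancel₀ (hden z hz), mul_one])
    have h1 : (p : ℤ) ∣ h.eval n := by
      obtain ⟨g, hg⟩ := rat_root_factor (hrootq z hz)
      rw [hg, eval_mul]
      refine dvd_mul_of_dvd_left ?_ _
      simpa using hdn
    rw [← hn, hhb, eval_intCast_map, eq_intCast, ZMod.intCast_zmod_eq_zero_iff_dvd]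
    exact h1
  have hcard : Multiset.card hb.roots ≤ (Z.image ψ).card := by
    rw [card_image_of_injOn hinj, hroots, ← hdeg]
    exact card_roots' hb
  have heq : Z.image ψ = hb.roots.toFinset :=
    eq_of_subset_of_card_le hsub ((Multiset.toFinset_card_le _).trans hcard)
  have hnd : hb.roots.Nodup := Multiset.toFinset_card_eq_card_iff_nodup.1
    (le_antisymm (Multiset.toFinset_card_le _) (by rw [← heq]; exact hcard))
  intro r hr
  have hr0 : hb.IsRoot (r : ZMod p) := by
    rw [IsRoot.def, hhb, eval_intCast_map, eq_intCast, ZMod.intCast_zmod_eq_zero_iff_dvd]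
    exact hr
  refine ⟨fun hd => ?_, ?_⟩
  · have hd0 : hb.derivative.IsRoot (r : ZMod p) := by
      rw [IsRoot.def, hhb, derivative_map, eval_intCast_map, eq_intCast,
        ZMod.intCast_zmod_eq_zero_iff_dvd]
      exact hd
    have := (one_lt_rootMultiplicity_iff_isRoot hb0).2 ⟨hr0, hd0⟩
    rw [← count_roots] at this
    have := Multiset.nodup_iff_count_le_one.1 hnd (r : ZMod p)
    omega
  · have : (r : ZMod p) ∈ Z.image ψ := by
      rw [heq, Multiset.mem_toFinset, mem_roots hb0]; exact hr0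
    obtain ⟨z, hz, hzr⟩ := mem_image.1 this
    refine ⟨z, hrootq z hz, fun hd => hni z.num ?_,
      fun hd => hden z hz ((ZMod.intCast_zmod_eq_zero_iff_dvd _ _).2 hd), ?_⟩
    · have h2 := hrootq z hz
      rw [← Rat.coe_int_num_of_den_eq_one hd, eval_intCast_map, eq_intCast] at h2
      exact_mod_cast h2
    rw [← ZMod.intCast_zmod_eq_zero_iff_dvd, Int.cast_sub, Int.cast_mul, ← hzr, hψ, sub_eq_zero]
    exact (mul_left_comm _ _ _).trans (by rw [mul_inv_cancel₀ (hden z hz), mul_one])

end Vale.Agent.P042.Power
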